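import Mathlib

/-!
The finite Ramsey theorem for subsets of the natural numbers, and a simultaneous version.
-/

namespace Vale.Agent.P125

open Finset

theorem finite_ramsey (C : ℕ) : ∀ s M : ℕ, ∃ n : ℕ, ∀ S : Finset ℕ, n ≤ S.card →
    ∀ col : Finset ℕ → Fin (C + 1), ∃ H, H ⊆ S ∧ M ≤ H.card ∧
      ∃ v, ∀ U, U ⊆ H → U.card = s → col U = v := by
  intro s
  induction s with
  | zero =>
    intro M
    exact ⟨M, fun S hS col => ⟨S, Subset.refl _, hS, col ∅, fun U _ hU => by
      rw [card_eq_zero.1 hU]⟩⟩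
  | succ s ih =>
    have pre : ∀ L : ℕ, ∃ n : ℕ, ∀ S : Finset ℕ, n ≤ S.card →
        ∀ col : Finset ℕ → Fin (C + 1), ∃ T, T ⊆ S ∧ L ≤ T.card ∧ ∃ g : ℕ → Fin (C + 1),
          ∀ U, U ⊆ T → U.card = s + 1 → ∀ hU : U.Nonempty, col U = g (U.min' hU) := by
      intro L
      induction L with
      | zero =>
        exact ⟨0, fun S _ col => ⟨∅, empty_subset _, le_rfl, fun _ => col ∅, fun U hU hc => by
          rw [subset_empty.1 hU] at hc; simp at hc⟩⟩
      | succ L ihL =>
        obtain ⟨nL, hnL⟩ := ihL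
        obtain ⟨n, hn⟩ := ih nL
        refine ⟨n + 1, fun S hS col => ?_⟩
        have hSne : S.Nonempty := card_pos.1 (by omega)
        obtain ⟨H, hHS, hHc, v, hv⟩ := hn (S.erase (S.min' hSne))
          (by rw [card_erase_of_mem (S.min'_mem hSne)]; omega)
          (fun U => col (insert (S.min' hSne) U))
        obtain ⟨T, hTH, hTc, g, hg⟩ := hnL H hHc col
        set a := S.min' hSne with ha
        have haT : a ∉ T := fun h => notMem_erase a S (hHS (hTH h))
        refine ⟨insert a T, ?_, by rw [card_insert_of_notMem haT]; omega,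
          fun x => if x = a then v else g x, ?_⟩
        · exact insert_subset (S.min'_mem hSne)
            (fun x hx => mem_of_mem_erase (hHS (hTH hx)))
        · intro U hU hUc hUne
          by_cases haU : a ∈ U
          · have hmin : U.min' hUne = a := by
              refine le_antisymm (min'_le _ _ haU) (le_min' _ _ _ fun x hx => ?_)
              rcases mem_insert.1 (hU hx) with h | h
              · exact h.ge
              · exact min'_le _ _ (mem_of_mem_erase (hHS (hTH h)))
            simp only [hmin, if_true]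
            have h1 : U.erase a ⊆ H := fun x hx => by
              rcases mem_insert.1 (hU (mem_of_mem_erase hx)) with h | h
              · exact absurd h (ne_of_mem_erase hx)
              · exact hTH h
            have h2 := hv _ h1 (by rw [card_erase_of_mem haU]; omega)
            rwa [insert_erase haU] at h2
          · have hUT : U ⊆ T := fun x hx => by
              rcases mem_insert.1 (hU hx) with h | h
              · exact absurd (h ▸ hx) haU
              · exact h
            have hne : U.min' hUne ≠ a := fun h => haU (h ▸ U.min'_mem hUne)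
            simp only [hne, if_false]
            exact hg U hUT hUc hUne
    intro M
    obtain ⟨n, hn⟩ := pre ((C + 1) * M)
    refine ⟨n, fun S hS col => ?_⟩
    obtain ⟨T, hTS, hTc, g, hg⟩ := hn S hS col
    have hmap : ∀ a ∈ T, g a ∈ (univ : Finset (Fin (C + 1))) := fun a _ => mem_univ _
    obtain ⟨v, -, hv⟩ := exists_le_card_fiber_of_mul_le_card_of_maps_to (n := M) hmap
      univ_nonempty (by simpa using hTc)
    refine ⟨T.filter (fun a => g a = v), (filter_subset _ _).trans hTS, hv, v,
      fun U hU hUc => ?_⟩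
    have hne : U.Nonempty := card_pos.1 (by omega)
    rw [hg U (hU.trans (filter_subset _ _)) hUc hne]
    exact (mem_filter.1 (hU (U.min'_mem hne))).2

/-- Simultaneous homogenisation of finitely many real valued functions on finite sets. -/
theorem ramsey_real {ι : Type} (size : ι → ℕ) (I : Finset ι) (B η : ℝ) (hη : 0 < η) :
    ∀ M : ℕ, ∃ n : ℕ, ∀ S : Finset ℕ, n ≤ S.card → ∀ F : ι → Finset ℕ → ℝ,
      (∀ i ∈ I, ∀ U, U ⊆ S → U.card = size i → 0 ≤ F i U ∧ F i U ≤ B) →
      ∃ H, H ⊆ S ∧ M ≤ H.card ∧ ∃ Φ : ι → ℝ, ∀ i ∈ I, ∀ U, U ⊆ H → U.card = size i →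
        |F i U - Φ i| ≤ η := by
  classical
  induction I using Finset.induction with
  | empty =>
    intro M
    exact ⟨M, fun S hS F _ => ⟨S, Subset.refl _, hS, fun _ => 0, by simp⟩⟩
  | insert i I hi ih =>
    intro M
    obtain ⟨n₁, hn₁⟩ := ih M
    obtain ⟨n, hn⟩ := finite_ramsey ⌈B / η⌉₊ (size i) n₁
    refine ⟨n, fun S hS F hF => ?_⟩
    obtain ⟨H₁, hH₁, hc₁, v, hv⟩ := hn S hS (fun U => ⟨min ⌊F i U / η⌋₊ ⌈B / η⌉₊, by omega⟩)
    obtain ⟨H, hH, hc, Φ, hΦ⟩ := hn₁ H₁ hc₁ F (fun j hj U hU hUc =>
      hF j (mem_insert_of_mem hj) U (hU.trans hH₁) hUc)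
    refine ⟨H, hH.trans hH₁, hc, fun j => if j = i then (v : ℕ) * η else Φ j, ?_⟩
    intro j hj U hU hUc
    by_cases hji : j = i
    · subst hji
      simp only [if_true]
      obtain ⟨h0, hB⟩ := hF j (mem_insert_self _ _) U (hU.trans (hH.trans hH₁)) hUc
      have h1 := hv U (hU.trans hH) hUc
      have h2 : ⌊F j U / η⌋₊ ≤ ⌈B / η⌉₊ :=
        le_trans (Nat.floor_mono (div_le_div_of_nonneg_right hB hη.le)) (Nat.floor_le_ceil _)
      have h3 : (v : ℕ) = ⌊F j U / η⌋₊ := by rw [← h1]; simp [h2]
      rw [h3, abs_le]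
      have h4 := Nat.floor_le (div_nonneg h0 hη.le)
      have h5 := Nat.lt_floor_add_one (F j U / η)
      rw [le_div_iff₀ hη] at h4
      rw [div_lt_iff₀ hη] at h5
      constructor <;> linarith
    · simp only [hji, if_false]
      exact hΦ j ((mem_insert.1 hj).resolve_left hji) U hU hUc

end Vale.Agent.P125
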