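import Mathlib

/-!
Markov type and equivalent uniformly smooth norms (the notions in the statement of P125).
-/

namespace Vale.Agent.P125

open scoped BigOperators

universe u

/-- `X` has Markov type `p` with constant `K`. -/
def MarkovTypeWith (X : Type u) [NormedAddCommGroup X] (p K : ℝ) : Prop :=
  ∀ (S : Type) [Fintype S] [DecidableEq S] (P : Matrix S S ℝ) (μ : S → ℝ),
    (∀ i j, 0 ≤ P i j) → (∀ i, ∑ j, P i j = 1) →
    (∀ i, 0 ≤ μ i) → (∑ i, μ i = 1) → (∀ i j, μ i * P i j = μ j * P j i) →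
    ∀ (f : S → X) (t : ℕ), 1 ≤ t →
      ∑ i, ∑ j, μ i * (P ^ t) i j * ‖f i - f j‖ ^ p ≤
        K ^ p * (t : ℝ) * ∑ i, ∑ j, μ i * P i j * ‖f i - f j‖ ^ p

/-- `X` has Markov type `p`. -/
def MarkovType (X : Type u) [NormedAddCommGroup X] (p : ℝ) : Prop :=
  ∃ K : ℝ, 0 ≤ K ∧ MarkovTypeWith X p K

/-- `X` has an equivalent uniformly smooth norm. -/
def HasUniformlySmoothNorm (X : Type u) [NormedAddCommGroup X] [NormedSpace ℝ X] : Prop :=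
  ∃ (N : Seminorm ℝ X) (a b : ℝ), 0 < a ∧ (∀ x, a * ‖x‖ ≤ N x) ∧ (∀ x, N x ≤ b * ‖x‖) ∧
    ∀ ε > (0 : ℝ), ∃ τ₀ > (0 : ℝ), ∀ τ, 0 < τ → τ ≤ τ₀ → ∀ x y, N x = 1 → N y = 1 →
      (N (x + τ • y) + N (x - τ • y)) / 2 - 1 ≤ ε * τ

end Vale.Agent.P125
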