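import Vale.Agent.P125.Defs
import Vale.Agent.P125.Ramsey

/-!
Alternating block averages and their homogenisation along a summing system.
-/

namespace Vale.Agent.P125

open Finset

universe u

variable {Y : Type u} [NormedAddCommGroup Y] [NormedSpace ℝ Y]

/-- `f` lists `L` increasing blocks of `B` distinct positions below `M`. -/
structure IsBlocks (M L B : ℕ) (f : ℕ → ℕ → ℕ) : Prop where
  lt : ∀ l u, l < L → u < B → f l u < M
  sep : ∀ l l' u u', l < l' → l' < L → u < B → u' < B → f l u < f l' u'
  inj : ∀ l u u', l < L → u < B → u' < B → f l u = f l u' → u = u'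

/-- The alternating sum of the block averages. -/
noncomputable def blockVec (z : ℕ → Y) (L B : ℕ) (f : ℕ → ℕ → ℕ) : Y :=
  ∑ l ∈ range L, ∑ u ∈ range B, ((-1 : ℝ) ^ l / B) • z (f l u)

/-- The same vector, read off from the underlying set. -/
noncomputable def setVec (z : ℕ → Y) (B : ℕ) (S : Finset ℕ) : Y :=
  ∑ a ∈ S, ((-1 : ℝ) ^ ((S.filter (fun b => b < a)).card / B) / B) • z a

lemma setVec_image (z : ℕ → Y) {M L B : ℕ} {f : ℕ → ℕ → ℕ} (hf : IsBlocks M L B f) :
    ((range L ×ˢ range B).image fun x => f x.1 x.2).card = L * B ∧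
      setVec z B ((range L ×ˢ range B).image fun x => f x.1 x.2) = blockVec z L B f := by
  have hinj : Set.InjOn (fun x : ℕ × ℕ => f x.1 x.2) ↑(range L ×ˢ range B) := by
    intro x hx y hy hxy
    simp only [coe_product, Set.mem_prod, coe_range, Set.mem_Iio] at hx hy
    simp only at hxy
    rcases lt_trichotomy x.1 y.1 with h | h | h
    · exact absurd hxy (hf.sep _ _ _ _ h hy.1 hx.2 hy.2).ne
    · rw [← h] at hxy
      exact Prod.ext h (hf.inj _ _ _ hx.1 hx.2 hy.2 hxy)
    · exact absurd hxy (hf.sep _ _ _ _ h hx.1 hy.2 hx.2).ne'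
  refine ⟨by rw [card_image_of_injOn hinj, card_product, card_range, card_range], ?_⟩
  rw [setVec, sum_image hinj, sum_product, blockVec]
  refine sum_congr rfl fun l hl => sum_congr rfl fun u hu => ?_
  rw [mem_range] at hl hu
  simp only
  suffices h : (((range L ×ˢ range B).image fun x => f x.1 x.2).filter
      (fun b => b < f l u)).card / B = l by rw [h]
  apply Nat.div_eq_of_lt_le
  · have hsub : (range l ×ˢ range B).image (fun x => f x.1 x.2) ⊆
        ((range L ×ˢ range B).image fun x => f x.1 x.2).filter (fun b => b < f l u) := by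
      intro b hb
      simp only [mem_image, mem_product, mem_range, mem_filter, Prod.exists] at hb ⊢
      obtain ⟨l', u', ⟨h1, h2⟩, rfl⟩ := hb
      exact ⟨⟨l', u', ⟨by omega, h2⟩, rfl⟩, hf.sep _ _ _ _ h1 hl h2 hu⟩
    refine le_trans ?_ (card_le_card hsub)
    rw [card_image_of_injOn (hinj.mono (by
      simp only [coe_product, coe_range]
      exact Set.prod_mono (Set.Iio_subset_Iio (by omega)) (Set.Subset.refl _))),
      card_product, card_range, card_range]
  · have hsub : ((range L ×ˢ range B).image fun x => f x.1 x.2).filter (fun b => b < f l u) ⊆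
        ((range (l + 1) ×ˢ range B).erase (l, u)).image (fun x => f x.1 x.2) := by
      intro b hb
      simp only [mem_image, mem_product, mem_range, mem_filter, Prod.exists, mem_erase,
        ne_eq, Prod.mk.injEq] at hb ⊢
      obtain ⟨⟨l', u', ⟨h1, h2⟩, rfl⟩, hlt⟩ := hb
      refine ⟨l', u', ⟨fun h => ?_, ?_, h2⟩, rfl⟩
      · rw [h.1, h.2] at hlt
        exact lt_irrefl _ hlt
      · by_contra h
        exact absurd (hf.sep l l' u u' (by omega) h1 hu h2) (by omega)
    refine lt_of_le_of_lt ((card_le_card hsub).trans card_image_le) ?_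
    rw [card_erase_of_mem (by simp [hu]), card_product, card_range, card_range]
    have : 0 < (l + 1) * B := Nat.mul_pos (Nat.succ_pos l) (by omega)
    omega

/-- The values of `blockVec z L B` do not depend on the blocks below `M`, up to `η`. -/
def Homog (z : ℕ → Y) (M L B : ℕ) (Φ η : ℝ) : Prop :=
  ∀ f, IsBlocks M L B f → |‖blockVec z L B f‖ - Φ| ≤ η

/-- `z` is a summing system on `[0, M)`. -/
def IsSumming (z : ℕ → Y) (M : ℕ) (c δ : ℝ) : Prop :=
  (∀ j, ‖z j‖ ≤ 1) ∧ ∀ (a : ℕ → ℝ) (m : ℕ), m ≤ M →
    c * |∑ j ∈ range m, a j| - δ * ∑ j ∈ range M, |a j| ≤ ‖∑ j ∈ range M, a j • z j‖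

lemma norm_blockVec_le {z : ℕ → Y} (hz : ∀ j, ‖z j‖ ≤ 1) (L B : ℕ) (f : ℕ → ℕ → ℕ) :
    ‖blockVec z L B f‖ ≤ L := by
  refine (norm_sum_le _ _).trans ?_
  refine le_trans (sum_le_sum fun l _ => (norm_sum_le _ _).trans
    (sum_le_sum (g := fun _ => (1 : ℝ) / B) fun u _ => ?_)) ?_
  · rw [norm_smul, norm_div, norm_pow]
    simp only [norm_neg, norm_one, one_pow, RCLike.norm_natCast]
    exact mul_le_of_le_one_right (by positivity) (hz _)
  · simp only [sum_const, card_range, nsmul_eq_mul]
    rcases Nat.eq_zero_or_pos B with h | h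
    · simp [h]
    · rw [show (B : ℝ) * (1 / B) = 1 by field_simp]
      simp

/-- Ramsey: every long summing system contains one with finitely many block values homogeneous. -/
theorem exists_homog (I : Finset (ℕ × ℕ)) (η : ℝ) (hη : 0 < η) (M : ℕ) :
    ∃ n : ℕ, 2 ≤ n ∧ ∀ (Y : Type u) [NormedAddCommGroup Y] [NormedSpace ℝ Y] (c δ : ℝ),
      Summing Y n c δ → ∃ (z : ℕ → Y) (Φ : ℕ × ℕ → ℝ),
        IsSumming z M c δ ∧ ∀ i ∈ I, Homog z M i.1 i.2 (Φ i) η := by
  classical
  obtain ⟨n₀, hn₀⟩ := ramsey_real (fun i : ℕ × ℕ => i.1 * i.2) I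
    (∑ i ∈ I, (i.1 * i.2 : ℝ)) η hη M
  refine ⟨n₀ + 2, by omega, ?_⟩
  rintro Y _ _ c δ ⟨y, hy1, hy⟩
  let y' : ℕ → Y := fun j => if h : j < n₀ + 2 then y ⟨j, h⟩ else 0
  have hy' : ∀ j, ‖y' j‖ ≤ 1 := fun j => by
    simp only [y']
    split_ifs
    · exact hy1 _
    · simp
  have hset : ∀ i ∈ I, ∀ U : Finset ℕ, U.card = i.1 * i.2 →
      0 ≤ ‖setVec y' i.2 U‖ ∧ ‖setVec y' i.2 U‖ ≤ ∑ i ∈ I, (i.1 * i.2 : ℝ) := by
    intro i hi U hU
    refine ⟨norm_nonneg _, le_trans ?_ (single_le_sum (f := fun i : ℕ × ℕ => (i.1 * i.2 : ℝ))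
      (fun i _ => by positivity) hi)⟩
    refine (norm_sum_le _ _).trans (le_trans (sum_le_sum (g := fun _ => (1 : ℝ)) fun a _ => ?_) ?_)
    · rw [norm_smul, norm_div, norm_pow]
      simp only [norm_neg, norm_one, one_pow, RCLike.norm_natCast]
      rcases Nat.eq_zero_or_pos i.2 with h | h
      · simp [h]
      · exact (mul_le_of_le_one_right (by positivity) (hy' a)).trans
          ((div_le_one (by positivity)).2 (by exact_mod_cast h))
    · simp [hU]
  obtain ⟨H, hHS, hHc, Φ, hΦ⟩ := hn₀ (range (n₀ + 2)) (by simp)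
    (fun i U => ‖setVec y' i.2 U‖) (fun i hi U _ hU => hset i hi U hU)
  obtain ⟨H', hH', hc'⟩ := exists_subset_card_eq hHc
  let h : Fin M ↪o ℕ := H'.orderEmbOfFin hc'
  have hmem : ∀ j, h j ∈ H := fun j => hH' (orderEmbOfFin_mem _ _ _)
  have hlt : ∀ j, h j < n₀ + 2 := fun j => mem_range.1 (hHS (hmem j))
  let g : ℕ → ℕ := fun j => if hj : j < M then h ⟨j, hj⟩ else n₀ + 2
  have hg : ∀ i j, i < j → j < M → g i < g j := by
    intro i j hij hj
    simp only [g, dif_pos hj, dif_pos (lt_trans hij hj)]
    exact h.strictMono hij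
  refine ⟨fun j => y' (g j), Φ, ⟨fun j => hy' _, ?_⟩, ?_⟩
  · intro a m hm
    let a' : Fin (n₀ + 2) → ℝ := fun i => ∑ j ∈ (range M).filter (fun j => g j = i), a j
    have hgM : ∀ j ∈ range M, g j < n₀ + 2 := fun j hj => by
      simp only [g, dif_pos (mem_range.1 hj)]
      exact hlt _
    have key : ∀ {G : Type u} [AddCommGroup G] [Module ℝ G] (v : Fin (n₀ + 2) → G),
        ∑ i, a' i • v i = ∑ j ∈ range M, a j • (if hj : g j < n₀ + 2 then v ⟨g j, hj⟩ else 0) := by
      intro G _ _ v
      simp only [a', sum_smul, sum_filter]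
      rw [sum_comm]
      refine sum_congr rfl fun j hj => ?_
      rw [dif_pos (hgM j hj), sum_eq_single ⟨g j, hgM j hj⟩]
      · simp
      · intro b _ hb
        rw [if_neg (fun h => hb (Fin.ext h.symm)), ]
        simp
      · simp
    have h1 : ∑ i, a' i • y i = ∑ j ∈ range M, a j • y' (g j) := by
      rw [key]
    have h2 : ∑ i, |a' i| ≤ ∑ j ∈ range M, |a j| := by
      refine (sum_le_sum fun i _ => abs_sum_le_sum_abs _ _).trans_eq ?_
      simp only [sum_filter]
      rw [sum_comm]
      refine sum_congr rfl fun j hj => ?_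
      rw [sum_eq_single ⟨g j, hgM j hj⟩]
      · simp
      · intro b _ hb
        rw [if_neg (fun h => hb (Fin.ext h.symm))]
      · simp
    have h3 : ∑ i ∈ univ.filter (fun i : Fin (n₀ + 2) =>
        (i : ℕ) < if m < M then g m else n₀ + 2), a' i = ∑ j ∈ range m, a j := by
      rw [sum_filter]
      simp only [a', sum_filter]
      rw [show ∑ j ∈ range m, a j = ∑ j ∈ range M, if j < m then a j else 0 by
        rw [← sum_filter]; congr 1; ext j; simp; omega]
      simp only [ite_sum_zero]
      rw [sum_comm]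
      refine sum_congr rfl fun j hj => ?_
      rw [sum_eq_single ⟨g j, hgM j hj⟩]
      · have hjm : (g j < if m < M then g m else n₀ + 2) ↔ j < m := by
          split_ifs with hmM
          · constructor
            · intro hh
              by_contra hc
              rcases Nat.eq_or_lt_of_le (not_lt.1 hc) with h' | h'
              · rw [h'] at hh; exact lt_irrefl _ hh
              · exact absurd (hg m j h' (mem_range.1 hj)) (by omega)
            · exact fun hh => hg j m hh hmM
          · simp only [hgM j hj, true_iff]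
            have := mem_range.1 hj
            omega
        simp only [hjm, if_true]
      · intro b _ hb
        have hne : ¬ (g j = (b : ℕ)) := fun h => hb (Fin.ext h.symm)
        simp [hne]
      · simp
    have h4 := hy a' (if m < M then g m else n₀ + 2)
    rw [h1, h3] at h4
    rcases le_or_gt 0 δ with hδ | hδ
    · nlinarith
    · have h5 : ∑ i, |a' i| = ∑ j ∈ range M, |a j| := by
        have hone : ∀ i, |a' i| = ∑ j ∈ (range M).filter (fun j => g j = i), |a j| := by
          intro i
          rcases eq_empty_or_nonempty ((range M).filter (fun j => g j = i)) with he | ⟨j₀, hj₀⟩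
          · simp [a', he]
          · have : (range M).filter (fun j => g j = i) = {j₀} := by
              refine eq_singleton_iff_unique_mem.2 ⟨hj₀, fun j hj => ?_⟩
              simp only [mem_filter, mem_range] at hj hj₀
              rcases lt_trichotomy j j₀ with h' | h' | h'
              · exact absurd (hg j j₀ h' hj₀.1) (by omega)
              · exact h'
              · exact absurd (hg j₀ j h' hj.1) (by omega)
            simp [a', this]
        simp only [hone, sum_filter]
        rw [sum_comm]
        refine sum_congr rfl fun j hj => ?_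
        rw [sum_eq_single ⟨g j, hgM j hj⟩]
        · simp
        · intro b _ hb
          rw [if_neg (fun h => hb (Fin.ext h.symm))]
        · simp
      rw [h5] at h4
      exact h4
  · intro i hi f hf
    have hf' : IsBlocks (n₀ + 2) i.1 i.2 (fun l u => g (f l u)) := by
      refine ⟨fun l u hl hu => ?_, fun l l' u u' hl hl' hu hu' =>
        hg _ _ (hf.sep l l' u u' hl hl' hu hu') (hf.lt _ _ hl' hu'), ?_⟩
      · simp only [g, dif_pos (hf.lt l u hl hu)]
        exact hlt _
      · intro l u u' hl hu hu' huu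
        apply hf.inj l u u' hl hu hu'
        rcases lt_trichotomy (f l u) (f l u') with h' | h' | h'
        · exact absurd huu (hg _ _ h' (hf.lt _ _ hl hu')).ne
        · exact h'
        · exact absurd huu (hg _ _ h' (hf.lt _ _ hl hu)).ne'
    obtain ⟨hcard, heq⟩ := setVec_image y' hf'
    have hsub : ((range i.1 ×ˢ range i.2).image fun x => g (f x.1 x.2)) ⊆ H := by
      intro b hb
      simp only [mem_image, mem_product, mem_range, Prod.exists] at hb
      obtain ⟨l, u, ⟨hl, hu⟩, rfl⟩ := hb
      simp only [g, dif_pos (hf.lt l u hl hu)]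
      exact hmem _
    have := hΦ i hi _ hsub hcard
    rw [heq] at this
    exact this

end Vale.Agent.P125
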