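import Vale.Agent.P125.Defs

/-!
Coherent edge labelled bipartite graphs (piece C of P125).
-/

namespace Vale.Agent.P125

/-- At a common vertex owning the intervals of parity `q`, the edge `e` precedes `e'`. -/
def Before {E : Type} (m : ℕ) (s : E → ℕ → ℕ) (q : ℕ) (e e' : E) : Prop :=
  s e 1 < s e' 1 ∧ ∀ j, j % 2 = q →
    (j + 1 ≤ m → s e (j + 1) < s e' j) ∧ (j + 2 ≤ m → s e' (j + 1) < s e (j + 2))

/-- The coherence axioms of the inductive construction. -/
structure Coherent {A B E : Type} (m : ℕ) (a : E → A) (b : E → B) (s : E → ℕ → ℕ) : Prop where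
  mono : ∀ e j, j < m → s e j < s e (j + 1)
  base : ∀ e e', b e = b e' → s e 0 = s e' 0
  ordA : ∀ e e', a e = a e' → e ≠ e' → Before m s 0 e e' ∨ Before m s 0 e' e
  ordB : ∀ e e', b e = b e' → e ≠ e' → Before m s 1 e e' ∨ Before m s 1 e' e

lemma coherent_base (d : ℕ) :
    Coherent 1 (fun e : Fin d × Fin d => e.1) (fun e => e.2)
      (fun e j => (e.2 : ℕ) * (d + 2) + j * ((e.1 : ℕ) + 1)) := by
  refine ⟨?_, ?_, ?_, ?_⟩
  · intro e j hj
    interval_cases j
    simp
  · intro e e' h
    simp [h]
  · rintro ⟨x, y⟩ ⟨x', y'⟩ h hne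
    simp only at h
    subst h
    have hy : (y : ℕ) ≠ (y' : ℕ) := fun h => hne (by rw [Fin.ext h])
    have hx : (x : ℕ) < d := x.isLt
    rcases Nat.lt_or_gt_of_ne hy with hlt | hlt
    · left
      have hmul := Nat.mul_le_mul_right (d + 2) hlt
      refine ⟨?_, fun j hj => ⟨fun hj1 => ?_, fun hj2 => absurd hj2 (by omega)⟩⟩
      · simp only; nlinarith
      · have : j = 0 := by omega
        subst this
        simp only; nlinarith
    · right
      have hmul := Nat.mul_le_mul_right (d + 2) hlt
      refine ⟨?_, fun j hj => ⟨fun hj1 => ?_, fun hj2 => absurd hj2 (by omega)⟩⟩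
      · simp only; nlinarith
      · have : j = 0 := by omega
        subst this
        simp only; nlinarith
  · rintro ⟨x, y⟩ ⟨x', y'⟩ h hne
    simp only at h
    subst h
    have hx : (x : ℕ) ≠ (x' : ℕ) := fun h => hne (by rw [Fin.ext h])
    rcases Nat.lt_or_gt_of_ne hx with hlt | hlt
    · left
      exact ⟨by simp only; omega, fun j hj =>
        ⟨fun hj1 => absurd hj1 (by omega), fun hj2 => absurd hj2 (by omega)⟩⟩
    · right
      exact ⟨by simp only; omega, fun j hj =>
        ⟨fun hj1 => absurd hj1 (by omega), fun hj2 => absurd hj2 (by omega)⟩⟩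

/-- One step of the construction: the labels of level `m` become exponents for level `m + 1`. -/
lemma coherent_step {A B E : Type} [Fintype A] [Fintype B] [Fintype E] {m : ℕ} (hm : 1 ≤ m)
    {a : E → A} {b : E → B} {s : E → ℕ → ℕ} (hc : Coherent m a b s) :
    ∃ (n : ℕ) (a' : E × Fin n → B × Fin (2 * n)) (b' : E × Fin n → A × Fin n)
      (s' : E × Fin n → ℕ → ℕ), 0 < n ∧ Coherent (m + 1) a' b' s' := by
  classical
  obtain ⟨S, hS⟩ : ∃ S, ∀ e j, j ≤ m → s e j ≤ S := by
    refine ⟨∑ e, ∑ j ∈ Finset.range (m + 1), s e j, fun e j hj => ?_⟩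
    calc s e j ≤ ∑ i ∈ Finset.range (m + 1), s e i :=
          Finset.single_le_sum (f := fun i => s e i) (fun i _ => Nat.zero_le _)
            (Finset.mem_range.2 (by omega))
      _ ≤ _ := Finset.single_le_sum (f := fun x => ∑ i ∈ Finset.range (m + 1), s x i)
            (fun i _ => Nat.zero_le _) (Finset.mem_univ e)
  set D : ℕ := S + 2 with hD
  set h : E → ℕ := fun e => 3 ^ (D * s e 0 + (S - s e 1)) with hh
  set G : ℕ → ℕ := fun x => 3 ^ (D * x) with hG
  set n : ℕ := 2 * 3 ^ (D * (S + 1)) + 1 with hn
  have hbound : ∀ e, 2 * h e < n := by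
    intro e
    have h1 : D * s e 0 ≤ D * S := Nat.mul_le_mul_left _ (hS e 0 (by omega))
    have h2 : D * s e 0 + (S - s e 1) ≤ D * (S + 1) := by rw [Nat.mul_succ]; omega
    have := Nat.pow_le_pow_right (show 1 ≤ 3 by norm_num) h2
    simp only [hh, hn]; omega
  have hpos : ∀ e, 0 < h e := fun e => pow_pos (by norm_num) _
  have hmono : ∀ e i j, i < j → j ≤ m → s e i < s e j := by
    intro e i j hij
    induction j with
    | zero => omega
    | succ j ih =>
      intro hjm
      rcases Nat.lt_or_ge i j with h' | h'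
      · exact lt_trans (ih h' (by omega)) (hc.mono e j (by omega))
      · have : i = j := by omega
        subst this
        exact hc.mono e i (by omega)
  have hG3 : ∀ x y, x < y → 3 * G x ≤ G y := by
    intro x y hxy
    simp only [hG]
    rw [← pow_succ']
    apply Nat.pow_le_pow_right (by norm_num)
    have := Nat.mul_le_mul_left D (show x + 1 ≤ y from hxy)
    rw [Nat.mul_succ] at this
    omega
  have hGlt : ∀ x y, x < y → G x < G y := by
    intro x y hxy
    have := hG3 x y hxy
    have : 0 < G x := pow_pos (by norm_num) _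
    omega
  have hhG : ∀ e x, s e 0 < x → 3 * h e ≤ G x := by
    intro e x hx
    simp only [hh, hG]
    rw [← pow_succ']
    apply Nat.pow_le_pow_right (by norm_num)
    have := Nat.mul_le_mul_left D (show s e 0 + 1 ≤ x from hx)
    rw [Nat.mul_succ] at this
    omega
  refine ⟨n, fun x => (b x.1, ⟨x.2 + 2 * h x.1, by have := hbound x.1; have := x.2.isLt; omega⟩),
    fun x => (a x.1, x.2),
    fun x j => if j = 0 then (x.2 : ℕ) else if j = 1 then x.2 + h x.1 else x.2 + G (s x.1 (j - 1)),
    by omega, ?_, ?_, ?_, ?_⟩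
  · rintro ⟨e, O⟩ j hj
    rcases j with _ | _ | j
    · simp; exact hpos e
    · have := hhG e (s e 1) (hmono e 0 1 (by omega) hm)
      have := hpos e
      simp; omega
    · have := hGlt _ _ (hmono e (j + 1) (j + 2) (by omega) (by omega))
      simp; omega
  · rintro ⟨e, O⟩ ⟨e', O'⟩ hb
    simp only [Prod.mk.injEq] at hb
    simp [hb.2]
  · -- new side A is the old side B
    rintro ⟨e, O⟩ ⟨e', O'⟩ ha hne
    simp only [Prod.mk.injEq, Fin.mk.injEq] at ha
    obtain ⟨hbe, hO⟩ := ha
    have hee : e ≠ e' := by
      rintro rfl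
      exact hne (Prod.ext rfl (Fin.ext (by simpa using hO)))
    have key : ∀ e e' : E, ∀ O O' : Fin n, b e = b e' → (O : ℕ) + 2 * h e = O' + 2 * h e' →
        Before m s 1 e e' → Before (m + 1)
          (fun (x : E × Fin n) j => if j = 0 then (x.2 : ℕ) else if j = 1 then x.2 + h x.1
            else x.2 + G (s x.1 (j - 1))) 0 (e, O) (e', O') := by
      intro e e' O O' hbe hO hbef
      obtain ⟨h1, hj⟩ := hbef
      have h0 := hc.base e e' hbe
      have hs' := hS e' 1 hm
      have h3 : 3 * h e' ≤ h e := by
        simp only [hh]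
        rw [← pow_succ', h0]
        apply Nat.pow_le_pow_right (by norm_num)
        omega
      have := hpos e'
      refine ⟨by simp; omega, fun j hj2 => ⟨fun hjm => ?_, fun hjm => ?_⟩⟩
      · rcases j with _ | _ | j
        · simp; omega
        · omega
        · have := hGlt _ _ ((hj (j + 1) (by omega)).1 (by omega))
          simp; omega
      · rcases j with _ | _ | j
        · have := hhG e (s e 1) (hmono e 0 1 (by omega) hm)
          simp; omega
        · omega
        · have h4 : s e' (j + 2) < s e (j + 3) := (hj (j + 1) (by omega)).2 (by omega)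
          have := hG3 _ _ h4
          have := hhG e (s e' (j + 2)) (by rw [h0]; exact hmono e' 0 _ (by omega) (by omega))
          simp [add_assoc]; omega
    rcases hc.ordB e e' hbe hee with hbef | hbef
    · exact Or.inl (key e e' O O' hbe hO hbef)
    · exact Or.inr (key e' e O' O hbe.symm hO.symm hbef)
  · -- new side B is the old side A
    rintro ⟨e, O⟩ ⟨e', O'⟩ hb hne
    simp only [Prod.mk.injEq] at hb
    obtain ⟨hae, hO⟩ := hb
    subst hO
    have hee : e ≠ e' := fun h => hne (by rw [h])
    have key : ∀ e e' : E, Before m s 0 e e' → Before (m + 1)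
          (fun (x : E × Fin n) j => if j = 0 then (x.2 : ℕ) else if j = 1 then x.2 + h x.1
            else x.2 + G (s x.1 (j - 1))) 1 (e, O) (e', O) := by
      intro e e' hbef
      obtain ⟨h1, hj⟩ := hbef
      have h01 : s e 1 < s e' 0 := (hj 0 rfl).1 (by omega)
      have hse := hS e 1 hm
      have hse' := hS e' 1 hm
      have hlt : h e < h e' := by
        simp only [hh]
        apply Nat.pow_lt_pow_right (by norm_num)
        have hse0 : s e 0 < s e 1 := hmono e 0 1 (by omega) hm
        have := Nat.mul_le_mul_left D (show s e 0 + 1 ≤ s e' 0 by omega)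
        rw [Nat.mul_succ] at this
        omega
      refine ⟨by simp; omega, fun j hj2 => ⟨fun hjm => ?_, fun hjm => ?_⟩⟩
      · rcases j with _ | _ | j
        · omega
        · have : G (s e 1) < h e' := by
            simp only [hG, hh]
            apply Nat.pow_lt_pow_right (by norm_num)
            have := Nat.mul_le_mul_left D (show s e 1 + 1 ≤ s e' 0 by omega)
            rw [Nat.mul_succ] at this
            omega
          simp; omega
        · have := hGlt _ _ ((hj (j + 1) (by omega)).1 (by omega))
          simp; omega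
      · rcases j with _ | _ | j
        · omega
        · have := hGlt _ _ ((hj 0 rfl).2 (by omega))
          simp; omega
        · have := hGlt _ _ ((hj (j + 1) (by omega)).2 (by omega))
          simp; omega
    rcases hc.ordA e e' hae hee with hbef | hbef
    · exact Or.inl (key e e' hbef)
    · exact Or.inr (key e' e hbef)

lemma exists_coherent (m : ℕ) (hm : 1 ≤ m) : ∀ ε : ℝ, 0 < ε →
    ∃ (A B E : Type) (_ : Fintype A) (_ : Fintype B) (_ : Fintype E)
      (a : E → A) (b : E → B) (s : E → ℕ → ℕ),
      0 < Fintype.card E ∧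
      ((Fintype.card A : ℝ) + Fintype.card B ≤ ε * Fintype.card E) ∧ Coherent m a b s := by
  induction m, hm using Nat.le_induction with
  | base =>
    intro ε hε
    obtain ⟨d, hd⟩ := exists_nat_gt (2 / ε)
    have hd0 : (0 : ℝ) < d := lt_trans (by positivity) hd
    refine ⟨Fin d, Fin d, Fin d × Fin d, inferInstance, inferInstance, inferInstance, _, _, _,
      ?_, ?_, coherent_base d⟩
    · have hd1 : 0 < d := Nat.cast_pos.1 hd0
      simpa using hd1.ne'
    · simp only [Fintype.card_fin, Fintype.card_prod, Nat.cast_mul]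
      rw [div_lt_iff₀ hε] at hd
      nlinarith
  | succ m hm ih =>
    intro ε hε
    obtain ⟨A, B, E, iA, iB, iE, a, b, s, hE, hV, hc⟩ := ih (ε / 2) (by linarith)
    obtain ⟨n, a', b', s', hn, hc'⟩ := coherent_step hm hc
    refine ⟨B × Fin (2 * n), A × Fin n, E × Fin n, inferInstance, inferInstance, inferInstance,
      a', b', s', ?_, ?_, hc'⟩
    · simpa using ⟨hE, hn⟩
    · simp only [Fintype.card_fin, Fintype.card_prod, Nat.cast_mul, Nat.cast_ofNat]
      have hA : (0 : ℝ) ≤ (Fintype.card A : ℝ) * n := by positivity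
      have := mul_le_mul_of_nonneg_right hV (show (0 : ℝ) ≤ 2 * n by positivity)
      nlinarith

theorem configStmt : ConfigStmt := by
  intro m ε hm hε
  obtain ⟨A, B, E, iA, iB, iE, a, b, s, hE, hV, hc⟩ := exists_coherent m hm ε hε
  refine ⟨A, B, E, iA, iB, iE, a, b, s, hE, hV, hc.mono, ?_⟩
  intro k e side hside hpath
  classical
  let q : ℕ → ℕ := fun t => if side t then 0 else 1
  let c : ℕ → ℕ := fun t => Nat.rec (motive := fun _ => ℕ) k
    (fun i r => if Before m s (q i) (e i) (e (i + 1)) then r - 1 else r + 1) t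
  have hcs : ∀ i, c (i + 1) =
      if Before m s (q i) (e i) (e (i + 1)) then c i - 1 else c i + 1 := fun i => rfl
  have hcb : ∀ t, t < k → k ≤ c t + t ∧ c t ≤ k + t ∧ (c t + t + k) % 2 = 0 := by
    intro t
    induction t with
    | zero =>
      intro _
      refine ⟨le_rfl, le_rfl, ?_⟩
      show (k + 0 + k) % 2 = 0
      omega
    | succ t ih =>
      intro ht
      have := ih (by omega)
      rw [hcs]
      split_ifs <;> omega
  have hq : ∀ t, (q t + t) % 2 = q 0 % 2 := by
    intro t
    induction t with
    | zero => simp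
    | succ t ih =>
      have h' : q t + q (t + 1) = 1 := by
        simp only [q, hside t]; cases side t <;> simp
      omega
  have hq1 : ∀ t, q t ≤ 1 := fun t => by simp only [q]; split_ifs <;> omega
  -- one step along the path
  have hstep : ∀ l t, l + 2 * k ≤ m → t + 1 < k →
      ((k + 1 + l) % 2 = q 0 → s (e t) (c t + l) < s (e (t + 1)) (c (t + 1) + l)) ∧
      ((k + 1 + l) % 2 ≠ q 0 → s (e (t + 1)) (c (t + 1) + l) < s (e t) (c t + l)) := by
    intro l t hl ht
    obtain ⟨hb1, hb2, hb3⟩ := hcb t (by omega)
    obtain ⟨hb4, hb5, hb6⟩ := hcb (t + 1) ht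
    have hqt := hq t
    have hq0 := hq1 0
    have hqt1 := hq1 t
    obtain ⟨hne, hshare⟩ := hpath t ht
    have hor : Before m s (q t) (e t) (e (t + 1)) ∨ Before m s (q t) (e (t + 1)) (e t) := by
      simp only [q]
      cases hs : side t
      · simp only [hs, Bool.false_eq_true, if_false] at hshare ⊢
        exact hc.ordB _ _ hshare hne
      · simp only [hs, if_true] at hshare ⊢
        exact hc.ordA _ _ hshare hne
    rw [hcs] at hb4 hb5 hb6 ⊢
    by_cases hB : Before m s (q t) (e t) (e (t + 1))
    · simp only [hB, if_true] at hb4 hb5 hb6 ⊢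
      obtain ⟨i, hi⟩ : ∃ i, c t - 1 + l = i + 1 := ⟨c t - 2 + l, by omega⟩
      have hci : c t + l = i + 2 := by omega
      rw [hi, hci]
      constructor
      · intro hp
        exact (hB.2 (i + 1) (by omega)).1 (by omega)
      · intro hp
        exact (hB.2 i (by omega)).2 (by omega)
    · have hB' := hor.resolve_left hB
      simp only [hB, if_false] at hb4 hb5 hb6 ⊢
      obtain ⟨i, hi⟩ : ∃ i, c t + l = i + 1 := ⟨c t - 1 + l, by omega⟩
      have hci : c t + 1 + l = i + 2 := by omega
      rw [hi, hci]
      constructor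
      · intro hp
        exact (hB'.2 i (by omega)).2 (by omega)
      · intro hp
        exact (hB'.2 (i + 1) (by omega)).1 (by omega)
  have hchain : ∀ l t t', l + 2 * k ≤ m → t < t' → t' < k →
      ((k + 1 + l) % 2 = q 0 → s (e t) (c t + l) < s (e t') (c t' + l)) ∧
      ((k + 1 + l) % 2 ≠ q 0 → s (e t') (c t' + l) < s (e t) (c t + l)) := by
    intro l t t' hl htt
    induction t' with
    | zero => omega
    | succ t' ih =>
      intro ht'
      have h1 := hstep l t' hl ht'
      rcases Nat.lt_or_ge t t' with h' | h'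
      · have h2 := ih h' (by omega)
        exact ⟨fun hp => lt_trans (h2.1 hp) (h1.1 hp), fun hp => lt_trans (h1.2 hp) (h2.2 hp)⟩
      · have : t = t' := by omega
        subst this
        exact h1
  refine ⟨c, fun t ht => ⟨by have := hcb t ht; omega, (hcb t ht).2.2⟩, ?_, ?_⟩
  · intro l t t' hl ht ht'
    have hself : ∀ i, i < k → s (e i) (c i + l) < s (e i) (c i + l + 1) := fun i hi =>
      hc.mono _ _ (by have := hcb i hi; omega)
    by_cases hp : (k + 1 + l) % 2 = q 0
    · have hp' : (k + 1 + (l + 1)) % 2 ≠ q 0 := by omega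
      have h1 : s (e t) (c t + l) ≤ s (e (k - 1)) (c (k - 1) + l) := by
        rcases Nat.lt_or_ge t (k - 1) with h | h
        · exact ((hchain l t (k - 1) (by omega) h (by omega)).1 hp).le
        · rw [show t = k - 1 by omega]
      have h2 : s (e (k - 1)) (c (k - 1) + l + 1) ≤ s (e t') (c t' + l + 1) := by
        rcases Nat.lt_or_ge t' (k - 1) with h | h
        · have := (hchain (l + 1) t' (k - 1) (by omega) h (by omega)).2 hp'
          rw [← add_assoc, ← add_assoc] at this
          exact this.le
        · rw [show t' = k - 1 by omega]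
      have := hself (k - 1) (by omega)
      omega
    · have hp' : (k + 1 + (l + 1)) % 2 = q 0 := by have := hq1 0; omega
      have h1 : s (e t) (c t + l) ≤ s (e 0) (c 0 + l) := by
        rcases Nat.eq_zero_or_pos t with h | h
        · rw [h]
        · exact ((hchain l 0 t (by omega) h ht).2 hp).le
      have h2 : s (e 0) (c 0 + l + 1) ≤ s (e t') (c t' + l + 1) := by
        rcases Nat.eq_zero_or_pos t' with h | h
        · rw [h]
        · have := (hchain (l + 1) 0 t' (by omega) h ht').1 hp'
          rw [← add_assoc, ← add_assoc] at this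
          exact this.le
      have := hself 0 (by omega)
      omega
  · intro l t t' hl ht ht' hne
    rcases Nat.lt_or_gt_of_ne hne with h | h
    · by_cases hp : (k + 1 + l) % 2 = q 0
      · exact ((hchain l t t' hl h ht').1 hp).ne
      · exact ((hchain l t t' hl h ht').2 hp).ne'
    · by_cases hp : (k + 1 + l) % 2 = q 0
      · exact ((hchain l t' t hl h ht).1 hp).ne'
      · exact ((hchain l t' t hl h ht).2 hp).ne

end Vale.Agent.P125
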