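import Vale.Agent.P125.Basic

/-!
Internal notions and intermediate statements for P125: nontrivial Markov type gives an equivalent uniformly smooth norm.
-/

namespace Vale.Agent.P125

open scoped BigOperators ENNReal

universe u

/-- A finite martingale with `n` steps, as a tree of weighted mean zero increments. -/
inductive Mart (X : Type u) [AddCommGroup X] [Module ℝ X] : ℕ → Type u
  | nil : Mart X 0
  | node {n : ℕ} (r : ℕ) (w : Fin r → ℝ) (d : Fin r → X)
      (hw : ∀ i, 0 ≤ w i) (hw1 : ∑ i, w i = 1) (hd : ∑ i, w i • d i = 0)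
      (child : Fin r → Mart X n) : Mart X (n + 1)

variable {X : Type u} [NormedAddCommGroup X] [NormedSpace ℝ X]

/-- The expectation of the `p`-th power of the norm of `x` plus the final sum. -/
noncomputable def Mart.sumPow (p : ℝ) : {n : ℕ} → Mart X n → X → ℝ
  | _, .nil, x => ‖x‖ ^ p
  | _, .node _ w d _ _ _ child, x => ∑ i, w i * Mart.sumPow p (child i) (x + d i)

/-- The expected sum of the `p`-th powers of the increments. -/
noncomputable def Mart.cost (p : ℝ) : {n : ℕ} → Mart X n → ℝ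
  | _, .nil => 0
  | _, .node _ w d _ _ _ child => ∑ i, w i * (‖d i‖ ^ p + Mart.cost p (child i))

/-- A gain over the triangle inequality for all martingales with `n` steps. -/
def Gain (X : Type u) [NormedAddCommGroup X] [NormedSpace ℝ X] (p : ℝ) (n : ℕ) (γ : ℝ) : Prop :=
  ∀ M : Mart X n, M.sumPow p 0 ≤ γ * (n : ℝ) ^ (p - 1) * M.cost p

/-- `n` vectors of the unit ball whose combinations dominate, up to the factor `c` and the error
`δ`, all partial sums of coefficients. -/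
def Summing (Y : Type u) [NormedAddCommGroup Y] [NormedSpace ℝ Y] (n : ℕ) (c δ : ℝ) : Prop :=
  ∃ y : Fin n → Y, (∀ i, ‖y i‖ ≤ 1) ∧
    ∀ (a : Fin n → ℝ) (m : ℕ),
      c * |∑ i ∈ Finset.univ.filter (fun i : Fin n => (i : ℕ) < m), a i| - δ * ∑ i, |a i| ≤
        ‖∑ i, a i • y i‖

/-- Piece A: a one-scale gain gives an equivalent uniformly smooth norm. -/
def RenormStmt : Prop :=
  ∀ (X : Type u) [NormedAddCommGroup X] [NormedSpace ℝ X] (p : ℝ) (n : ℕ) (γ : ℝ),
    1 < p → 2 ≤ n → γ < 1 → Gain X p n γ → HasUniformlySmoothNorm X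

/-- Piece B: without a gain there are summing systems in finite `p`-sums of copies of `X`. -/
def SummingStmt : Prop :=
  ∀ (X : Type u) [NormedAddCommGroup X] [NormedSpace ℝ X] (p : ℝ) [Fact (1 ≤ ENNReal.ofReal p)]
    (n : ℕ), 1 < p → 2 ≤ n → (∀ γ < (1 : ℝ), ¬ Gain X p n γ) → ∀ δ > (0 : ℝ),
      ∃ (Ω : Type) (_ : Fintype Ω), Summing (PiLp (ENNReal.ofReal p) (fun _ : Ω => X)) n 1 δ

/-- Piece B': Markov type passes to finite `p`-sums with the same constant. -/
def PiLpMarkovStmt : Prop :=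
  ∀ (X : Type u) [NormedAddCommGroup X] [NormedSpace ℝ X] (p K : ℝ)
    [Fact (1 ≤ ENNReal.ofReal p)], 1 < p → MarkovTypeWith X p K →
      ∀ (Ω : Type) [Fintype Ω],
        MarkovTypeWith (PiLp (ENNReal.ofReal p) (fun _ : Ω => X)) p K

/-- Piece C: the coherent edge labelled bipartite graphs. -/
def ConfigStmt : Prop :=
  ∀ (m : ℕ) (ε : ℝ), 1 ≤ m → 0 < ε →
    ∃ (A B E : Type) (_ : Fintype A) (_ : Fintype B) (_ : Fintype E)
      (a : E → A) (b : E → B) (s : E → ℕ → ℕ),
      0 < Fintype.card E ∧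
      ((Fintype.card A : ℝ) + Fintype.card B ≤ ε * Fintype.card E) ∧
      (∀ e j, j < m → s e j < s e (j + 1)) ∧
      ∀ (k : ℕ) (e : ℕ → E) (side : ℕ → Bool),
        (∀ t, side (t + 1) = !side t) →
        (∀ t, t + 1 < k → e t ≠ e (t + 1) ∧
          (if side t then a (e t) = a (e (t + 1)) else b (e t) = b (e (t + 1)))) →
        ∃ c : ℕ → ℕ, (∀ t, t < k → c t ≤ 2 * k ∧ (c t + t + k) % 2 = 0) ∧
          (∀ l t t', l + 1 + 2 * k ≤ m → t < k → t' < k →
            s (e t) (c t + l) < s (e t') (c t' + l + 1)) ∧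
          (∀ l t t', l + 2 * k ≤ m → t < k → t' < k → t ≠ t' →
            s (e t) (c t + l) ≠ s (e t') (c t' + l))

/-- Piece D: Markov type bounds signed sums along non-backtracking paths. -/
def WalkStmt : Prop :=
  ∀ (Y : Type u) [NormedAddCommGroup Y] [NormedSpace ℝ Y] (p K : ℝ), 1 < p → 0 ≤ K →
    MarkovTypeWith Y p K →
    ∀ (A B E : Type) [Fintype A] [Fintype B] [Fintype E] (a : E → A) (b : E → B) (w : E → Y)
      (k : ℕ) (c : ℝ), 1 ≤ k → 0 ≤ c →
      (∀ (e : ℕ → E) (side : ℕ → Bool), (∀ t, side (t + 1) = !side t) →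
        (∀ t, t + 1 < k → e t ≠ e (t + 1) ∧
          (if side t then a (e t) = a (e (t + 1)) else b (e t) = b (e (t + 1)))) →
        c ≤ ‖∑ t ∈ Finset.range k, (-1 : ℝ) ^ t • w (e t)‖) →
      (2 * (Fintype.card E : ℝ) - (k : ℝ) * ((Fintype.card A : ℝ) + Fintype.card B)) * c ^ p ≤
        K ^ p * (k : ℝ) * (2 * ∑ e, ‖w e‖ ^ p)

/-- Piece E: a space with Markov type has no long summing systems. -/
def NoSummingStmt : Prop :=
  ∀ (p K c : ℝ), 1 < p → 0 ≤ K → 0 < c → ∃ (n : ℕ) (δ : ℝ), 2 ≤ n ∧ 0 < δ ∧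
    ∀ (Y : Type u) [NormedAddCommGroup Y] [NormedSpace ℝ Y],
      MarkovTypeWith Y p K → ¬ Summing Y n c δ

theorem main_of_pieces (hA : RenormStmt.{u}) (hB : SummingStmt.{u}) (hB' : PiLpMarkovStmt.{u})
    (hE : NoSummingStmt.{u}) (X : Type u) [NormedAddCommGroup X] [NormedSpace ℝ X] (p : ℝ)
    (hp : 1 < p) (hX : MarkovType X p) : HasUniformlySmoothNorm X := by
  obtain ⟨K, hK, hM⟩ := hX
  obtain ⟨n, δ, hn, hδ, hno⟩ := hE p K 1 hp hK one_pos
  by_contra hne
  have : Fact (1 ≤ ENNReal.ofReal p) := ⟨by simpa using hp.le⟩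
  obtain ⟨Ω, _, hS⟩ := hB X p n hp hn (fun γ hγ hg => hne (hA X p n γ hp hn hγ hg)) δ hδ
  exact hno _ (hB' X p K hp hM Ω) hS

end Vale.Agent.P125
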