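import Vale.Agent.P125.Defs
import Vale.Agent.P125.Config
import Vale.Agent.P125.Blocks

/-!
Piece E of P125: a space with Markov type has no long summing systems.
-/

namespace Vale.Agent.P125

open Finset

universe u

lemma sum_range_split {G : Type*} [AddCommMonoid G] (F : ℕ → G) (k Q : ℕ) :
    ∑ x ∈ range (k * Q), F x = ∑ v ∈ range k, ∑ q ∈ range Q, F (v * Q + q) := by
  induction k with
  | zero => simp
  | succ k ih => rw [Nat.succ_mul, sum_range_add, ih, sum_range_succ]

lemma sum_range_two {G : Type*} [AddCommMonoid G] (F : ℕ → G) (n : ℕ) :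
    ∑ l ∈ range (2 * n), F l = ∑ i ∈ range n, (F (2 * i) + F (2 * i + 1)) := by
  induction n with
  | zero => simp
  | succ n ih => rw [Nat.mul_succ, sum_range_succ, sum_range_succ, ih, sum_range_succ, add_assoc]

/-- The distance of two vertices of the cube. -/
def cubeDist {D : ℕ} (x y : Fin D → Bool) : ℝ := ∑ i, if x i = y i then 0 else 1

/-- Flip one coordinate. -/
def cubeFlip {D : ℕ} (x : Fin D → Bool) (i : Fin D) : Fin D → Bool :=
  Function.update x i (!x i)

/-- The walk flipping a uniformly chosen coordinate. -/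
noncomputable def cubeWalk (D : ℕ) : Matrix (Fin D → Bool) (Fin D → Bool) ℝ :=
  fun x y => ∑ i, if cubeFlip x i = y then (1 : ℝ) / D else 0

lemma cubeFlip_flip {D : ℕ} (x : Fin D → Bool) (i : Fin D) :
    cubeFlip (cubeFlip x i) i = x := by
  simp [cubeFlip]

lemma cubeDist_bounds {D : ℕ} (x y : Fin D → Bool) : 0 ≤ cubeDist x y ∧ cubeDist x y ≤ D := by
  constructor
  · exact sum_nonneg fun i _ => by split_ifs <;> norm_num
  · refine (sum_le_sum (g := fun _ => (1 : ℝ)) fun i _ => ?_).trans_eq (by simp)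
    split_ifs <;> norm_num

lemma cubeDist_self {D : ℕ} (x : Fin D → Bool) : cubeDist x x = 0 := by
  simp [cubeDist]

lemma cubeDist_comm {D : ℕ} (x y : Fin D → Bool) : cubeDist x y = cubeDist y x := by
  simp [cubeDist, eq_comm]

lemma cubeDist_flip {D : ℕ} (x y : Fin D → Bool) (i : Fin D) :
    cubeDist (cubeFlip x i) y = cubeDist x y + if x i = y i then 1 else -1 := by
  rw [← sub_eq_iff_eq_add', cubeDist, cubeDist, ← sum_sub_distrib, sum_eq_single i]
  · cases hx : x i <;> cases hy : y i <;> simp [cubeFlip, hx]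
  · intro j _ hj
    simp [cubeFlip, Function.update_of_ne hj]
  · simp

lemma cubeWalk_sum {D : ℕ} (x : Fin D → Bool) (F : (Fin D → Bool) → ℝ) :
    ∑ y, cubeWalk D x y * F y = ∑ i, (1 / D : ℝ) * F (cubeFlip x i) := by
  simp only [cubeWalk, sum_mul, ite_mul, zero_mul]
  rw [sum_comm]
  simp

lemma cubeWalk_drift {D : ℕ} (hD : 0 < D) (x z : Fin D → Bool) :
    ∑ y, cubeWalk D z y * cubeDist x y = (1 - 2 / D) * cubeDist x z + 1 := by
  rw [cubeWalk_sum]
  have h : ∀ i, cubeDist x (cubeFlip z i) =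
      cubeDist x z + (1 - 2 * if x i = z i then 0 else 1) := fun i => by
    rw [cubeDist_comm, cubeDist_flip, cubeDist_comm z x]
    by_cases hi : z i = x i
    · simp [hi]
    · simp [hi, Ne.symm hi]
      norm_num
  simp only [h, ← mul_sum, sum_add_distrib, sum_sub_distrib, sum_const, card_univ,
    Fintype.card_fin, nsmul_eq_mul]
  have : (D : ℝ) ≠ 0 := by positivity
  rw [← cubeDist]
  field_simp
  ring

lemma stochastic_pow {S : Type*} [Fintype S] [DecidableEq S] (P : Matrix S S ℝ)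
    (h0 : ∀ i j, 0 ≤ P i j) (h1 : ∀ i, ∑ j, P i j = 1) :
    ∀ t : ℕ, (∀ i j, 0 ≤ (P ^ t) i j) ∧ ∀ i, ∑ j, (P ^ t) i j = 1 := by
  intro t
  induction t with
  | zero =>
    refine ⟨fun i j => ?_, fun i => ?_⟩
    · simp only [pow_zero, Matrix.one_apply]
      split_ifs <;> norm_num
    · simp [Matrix.one_apply]
  | succ t ih =>
    refine ⟨fun i j => ?_, fun i => ?_⟩
    · rw [pow_succ, Matrix.mul_apply]
      exact sum_nonneg fun l _ => mul_nonneg (ih.1 i l) (h0 l j)
    · simp only [pow_succ, Matrix.mul_apply]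
      rw [sum_comm]
      simp only [← mul_sum, h1, mul_one, ih.2]

lemma cubeWalk_nonneg {D : ℕ} (x y : Fin D → Bool) : 0 ≤ cubeWalk D x y :=
  sum_nonneg fun i _ => by split_ifs <;> positivity

lemma cubeWalk_row {D : ℕ} (hD : 0 < D) (x : Fin D → Bool) : ∑ y, cubeWalk D x y = 1 := by
  have := cubeWalk_sum x (fun _ => (1 : ℝ))
  simp only [mul_one, sum_const, card_univ, Fintype.card_fin, nsmul_eq_mul] at this
  rw [this]
  field_simp

lemma cubeWalk_symm {D : ℕ} (x y : Fin D → Bool) : cubeWalk D x y = cubeWalk D y x := by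
  refine sum_congr rfl fun i _ => ?_
  have : cubeFlip x i = y ↔ cubeFlip y i = x :=
    ⟨fun h => by rw [← h, cubeFlip_flip], fun h => by rw [← h, cubeFlip_flip]⟩
  simp [this]

lemma cubeWalk_spread {D : ℕ} (hD : 2 ≤ D) (x : Fin D → Bool) :
    ∀ t : ℕ, (t : ℝ) - t ^ 2 / D ≤ ∑ y, (cubeWalk D ^ t) x y * cubeDist x y := by
  intro t
  induction t with
  | zero => simp [Matrix.one_apply, cubeDist_self]
  | succ t ih =>
    have hD' : (2 : ℝ) ≤ D := by exact_mod_cast hD
    have h : ∑ y, (cubeWalk D ^ (t + 1)) x y * cubeDist x y =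
        (1 - 2 / D) * (∑ y, (cubeWalk D ^ t) x y * cubeDist x y) + 1 := by
      have hrow := (stochastic_pow (cubeWalk D) cubeWalk_nonneg
        (cubeWalk_row (by omega)) t).2 x
      calc ∑ y, (cubeWalk D ^ (t + 1)) x y * cubeDist x y
          = ∑ z, (cubeWalk D ^ t) x z * ∑ y, cubeWalk D z y * cubeDist x y := by
            simp only [pow_succ, Matrix.mul_apply, sum_mul, mul_sum, mul_assoc]
            rw [sum_comm]
        _ = ∑ z, (cubeWalk D ^ t) x z * ((1 - 2 / D) * cubeDist x z + 1) := by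
            simp only [cubeWalk_drift (by omega : 0 < D)]
        _ = _ := by
            simp only [mul_add, mul_one, sum_add_distrib, hrow, mul_sum]
            congr 1
            exact sum_congr rfl fun z _ => by ring
    rw [h]
    have h2 : 0 ≤ 1 - 2 / (D : ℝ) := by
      rw [sub_nonneg, div_le_one (by linarith)]
      exact hD'
    refine le_trans ?_ (add_le_add_left (mul_le_mul_of_nonneg_left ih h2) 1)
    push_cast
    have key : (1 - 2 / (D : ℝ)) * (t - t ^ 2 / D) + 1 - ((t + 1) - (t + 1) ^ 2 / D) =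
        (2 * (t : ℝ) ^ 2 / D + 1) / D := by
      field_simp
      ring
    have : 0 ≤ (2 * (t : ℝ) ^ 2 / D + 1) / D := by positivity
    linarith

variable {Y : Type u} [NormedAddCommGroup Y] [NormedSpace ℝ Y]

/-- The difference of the averages over the blocks `2 * v` and `2 * v + 1`. -/
noncomputable def pairDiff (z : ℕ → Y) (B v : ℕ) : Y :=
  (∑ q ∈ range B, ((1 : ℝ) / B) • z (2 * v * B + q)) +
    ∑ q ∈ range B, ((-1 : ℝ) / B) • z ((2 * v + 1) * B + q)

lemma pairDiff_upper {z : ℕ → Y} {M N B : ℕ} {C η : ℝ} {Φ : ℕ → ℝ} (hC : 0 ≤ C + η)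
    (hM : 2 * N * B ≤ M) (hH : ∀ r, 1 ≤ r → r ≤ N → Homog z M (2 * r) B (Φ r) η)
    (hΦ : ∀ r, 1 ≤ r → r ≤ N → Φ r ≤ C) (V : Finset ℕ) (hV : V ⊆ range N) :
    ‖∑ v ∈ V, pairDiff z B v‖ ≤ C + η := by
  rcases Nat.eq_zero_or_pos V.card with h0 | h0
  · simp [card_eq_zero.1 h0, hC]
  set r := V.card with hr
  have hrN : r ≤ N := by simpa using card_le_card hV
  let h : Fin r ↪o ℕ := V.orderEmbOfFin rfl
  have hlt : ∀ i, h i < N := fun i => mem_range.1 (hV (orderEmbOfFin_mem _ _ _))
  let g : ℕ → ℕ := fun i => if hi : i < r then h ⟨i, hi⟩ else 0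
  have hg : ∀ i j, i < j → j < r → g i < g j := by
    intro i j hij hj
    simp only [g, dif_pos hj, dif_pos (lt_trans hij hj)]
    exact h.strictMono hij
  have hgN : ∀ i, i < r → g i < N := fun i hi => by
    simp only [g, dif_pos hi]
    exact hlt _
  let f : ℕ → ℕ → ℕ := fun l q => (2 * g (l / 2) + l % 2) * B + q
  have hf : IsBlocks M (2 * r) B f := by
    refine ⟨fun l u hl hu => ?_, fun l l' u u' hl hl' hu hu' => ?_, fun l u u' _ _ _ h => ?_⟩
    · have h1 := hgN (l / 2) (by omega)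
      have h2 : (2 * g (l / 2) + l % 2 + 1) * B ≤ 2 * N * B :=
        Nat.mul_le_mul_right B (by omega)
      simp only [f]
      rw [add_one_mul] at h2
      omega
    · have h1 : 2 * g (l / 2) + l % 2 + 1 ≤ 2 * g (l' / 2) + l' % 2 := by
        rcases Nat.lt_or_ge (l / 2) (l' / 2) with hd | hd
        · have := hg _ _ hd (by omega)
          omega
        · have : l / 2 = l' / 2 := by omega
          rw [this]
          omega
      have h2 := Nat.mul_le_mul_right B h1
      simp only [f]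
      rw [add_one_mul] at h2
      omega
    · simp only [f] at h
      omega
  have hsum : blockVec z (2 * r) B f = ∑ v ∈ V, pairDiff z B v := by
    rw [blockVec, sum_range_two]
    have hVeq : ∑ v ∈ V, pairDiff z B v = ∑ i ∈ range r, pairDiff z B (g i) := by
      conv_lhs => rw [← map_orderEmbOfFin_univ V rfl, sum_map]
      rw [sum_range]
      exact sum_congr rfl fun i _ => by simp [g, h]
    rw [hVeq]
    refine sum_congr rfl fun i _ => ?_
    simp [pairDiff, f, Nat.mul_add_div, pow_mul, pow_succ]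
  rw [← hsum]
  have := (abs_le.1 (hH r h0 hrN f hf)).2
  linarith [hΦ r h0 hrN]

lemma pairDiff_lower {z : ℕ → Y} {M N B : ℕ} {c δ : ℝ} (hB : 0 < B)
    (hM : 2 * N * B ≤ M) (hz : IsSumming z M c δ) (A : ℕ → ℝ) {v₀ : ℕ} (hv₀ : v₀ < N) :
    c * |A v₀| - δ * ∑ v ∈ range N, 2 * |A v| ≤ ‖∑ v ∈ range N, A v • pairDiff z B v‖ := by
  let a : ℕ → ℝ := fun j => if j < 2 * N * B then
    (-1 : ℝ) ^ (j / B) / B * A (j / B / 2) else 0
  have hB' : (B : ℝ) ≠ 0 := by positivity
  have ha : ∀ i q, i < 2 * N → q < B → a (i * B + q) = (-1 : ℝ) ^ i / B * A (i / 2) := by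
    intro i q hi hq
    have h1 : (i * B + q) / B = i := by
      rw [Nat.mul_comm, Nat.mul_add_div hB, Nat.div_eq_of_lt hq, add_zero]
    have h2 : (i + 1) * B ≤ 2 * N * B := Nat.mul_le_mul_right B hi
    rw [add_one_mul] at h2
    simp only [a, h1]
    rw [if_pos (by omega)]
  have hout : ∀ j, j ∈ range M → j ∉ range (2 * N * B) → a j = 0 := by
    intro j _ hj
    simp only [mem_range] at hj
    simp [a, hj]
  have hres : ∀ {G : Type u} [AddCommGroup G] (F : ℕ → ℝ → G), (∀ j, F j 0 = 0) →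
      ∑ j ∈ range M, F j (a j) = ∑ i ∈ range (2 * N), ∑ q ∈ range B,
        F (i * B + q) ((-1 : ℝ) ^ i / B * A (i / 2)) := by
    intro G _ F hF
    rw [← sum_subset (range_mono hM) (fun j hj hj' => by rw [hout j hj hj', hF]), sum_range_split]
    refine sum_congr rfl fun i hi => sum_congr rfl fun q hq => ?_
    rw [ha i q (mem_range.1 hi) (mem_range.1 hq)]
  have hvec : ∑ j ∈ range M, a j • z j = ∑ v ∈ range N, A v • pairDiff z B v := by
    rw [hres (fun j x => x • z j) (fun j => zero_smul _ _), sum_range_two]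
    refine sum_congr rfl fun v _ => ?_
    have hd0 : 2 * v / 2 = v := by omega
    have hd1 : (2 * v + 1) / 2 = v := by omega
    simp only [hd0, hd1, pairDiff, smul_add, smul_sum, smul_smul]
    simp [pow_succ, mul_comm]
  have habs : ∑ j ∈ range M, |a j| = ∑ v ∈ range N, 2 * |A v| := by
    rw [← sum_subset (range_mono hM) (fun j hj hj' => by rw [hout j hj hj', abs_zero]),
      sum_range_split]
    have h1 : ∀ i ∈ range (2 * N), ∑ q ∈ range B, |a (i * B + q)| = |A (i / 2)| := by
      intro i hi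
      rw [sum_congr rfl (fun q hq => by rw [ha i q (mem_range.1 hi) (mem_range.1 hq)])]
      simp [abs_mul, abs_div, field]
    rw [sum_congr rfl h1, sum_range_two]
    refine sum_congr rfl fun v _ => ?_
    have hd0 : 2 * v / 2 = v := by omega
    have hd1 : (2 * v + 1) / 2 = v := by omega
    rw [hd0, hd1, two_mul]
  have hpre : ∑ j ∈ range ((2 * v₀ + 1) * B), a j = A v₀ := by
    rw [sum_range_split]
    have h1 : ∀ i ∈ range (2 * v₀ + 1), ∑ q ∈ range B, a (i * B + q) =
        (-1 : ℝ) ^ i * A (i / 2) := by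
      intro i hi
      have hi' := mem_range.1 hi
      rw [sum_congr rfl (fun q hq => by rw [ha i q (by omega) (mem_range.1 hq)]), sum_const,
        card_range, nsmul_eq_mul]
      field_simp
    rw [sum_congr rfl h1, sum_range_succ, sum_range_two]
    simp [pow_mul, pow_succ, Nat.mul_add_div]
  have := hz.2 a ((2 * v₀ + 1) * B)
    ((Nat.mul_le_mul_right B (by omega : 2 * v₀ + 1 ≤ 2 * N)).trans hM)
  rwa [hpre, hvec, habs] at this

/-- If all alternating block values are at most `C`, Markov type gives a contradiction. -/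
lemma cube_contra {p K : ℝ} (hp : 1 < p) (hK : 0 ≤ K) (hY : MarkovTypeWith Y p K) {z : ℕ → Y}
    {M B t : ℕ} {c δ C η : ℝ} {Φ : ℕ → ℝ} (hc : 0 < c) (ht : 1 ≤ t) (hB : 0 < B)
    (hC : 0 ≤ C) (hη : 0 ≤ η) (hη1 : η ≤ 1)
    (hδ0 : 0 ≤ δ) (hδ : δ * (16 * 2 ^ (2 * t)) ≤ c)
    (hM : 2 * 2 ^ (2 * t) * B ≤ M) (hz : IsSumming z M c δ)
    (hH : ∀ r, 1 ≤ r → r ≤ 2 ^ (2 * t) → Homog z M (2 * r) B (Φ r) η)
    (hΦ : ∀ r, 1 ≤ r → r ≤ 2 ^ (2 * t) → Φ r ≤ C) :
    (c * t / 4) ^ p ≤ K ^ p * t * (2 * C + 2) ^ p := by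
  classical
  set D := 2 * t with hD
  set N := 2 ^ D with hN
  have hcard : Fintype.card (Fin D → Bool) = N := by simp [hN]
  let e : (Fin D → Bool) ≃ Fin N := Fintype.equivFinOfCardEq hcard
  let A : (Fin D → Bool) → ℕ → ℝ := fun x v =>
    if h : v < N then cubeDist x (e.symm ⟨v, h⟩) else 0
  let F : (Fin D → Bool) → Y := fun x => ∑ v ∈ range N, A x v • pairDiff z B v
  have hup : ∀ x i, ‖F x - F (cubeFlip x i)‖ ≤ 2 * C + 2 := by
    intro x i
    let P : ℕ → Prop := fun v => A x v - A (cubeFlip x i) v = 1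
    have hA : ∀ v ∈ range N, A x v - A (cubeFlip x i) v = if P v then 1 else -1 := by
      intro v hv
      simp only [P, A, dif_pos (mem_range.1 hv), cubeDist_flip]
      by_cases h1 : x i = (e.symm ⟨v, mem_range.1 hv⟩) i
      · simp [h1]
      · simp [h1]
    have h1 : F x - F (cubeFlip x i) =
        (∑ v ∈ (range N).filter P, pairDiff z B v) -
          ∑ v ∈ (range N).filter (fun v => ¬ P v), pairDiff z B v := by
      simp only [F, ← sum_sub_distrib, ← sub_smul]
      rw [sum_congr rfl (fun v hv => by rw [hA v hv]), ← sum_filter_add_sum_filter_not _ P,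
        sub_eq_add_neg, ← sum_neg_distrib]
      congr 1 <;> refine sum_congr rfl fun v hv => ?_ <;> simp [(mem_filter.1 hv).2]
    rw [h1]
    refine (norm_sub_le _ _).trans ?_
    linarith [pairDiff_upper (by linarith) hM hH hΦ ((range N).filter P) (filter_subset _ _),
      pairDiff_upper (by linarith) hM hH hΦ ((range N).filter fun v => ¬ P v)
        (filter_subset _ _)]
  have hlow : ∀ x y, c * cubeDist x y - c * t / 4 ≤ ‖F x - F y‖ := by
    intro x y
    have h1 : F x - F y = ∑ v ∈ range N, (A x v - A y v) • pairDiff z B v := by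
      simp only [F, ← sum_sub_distrib, ← sub_smul]
    have h2 := pairDiff_lower hB hM hz (fun v => A x v - A y v) (e y).2
    rw [← h1] at h2
    have h3 : A x (e y) - A y (e y) = cubeDist x y := by
      simp [A, cubeDist_self]
    rw [h3, abs_of_nonneg (cubeDist_bounds x y).1] at h2
    have h4 : ∑ v ∈ range N, 2 * |A x v - A y v| ≤ N * (2 * D) := by
      refine (sum_le_sum (g := fun _ => 2 * (D : ℝ)) fun v hv => ?_).trans_eq (by simp)
      simp only [A, dif_pos (mem_range.1 hv)]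
      have hx := cubeDist_bounds x (e.symm ⟨v, mem_range.1 hv⟩)
      have hy := cubeDist_bounds y (e.symm ⟨v, mem_range.1 hv⟩)
      gcongr
      rw [abs_le]
      constructor <;> linarith
    have h5 : δ * (N * (2 * D)) ≤ c * t / 4 := by
      simp only [hN, hD]
      push_cast
      nlinarith [mul_le_mul_of_nonneg_right hδ (Nat.cast_nonneg t : (0 : ℝ) ≤ t)]
    nlinarith [mul_le_mul_of_nonneg_left h4 hδ0]
  have hDpos : 0 < D := by omega
  have hNpos : (0 : ℝ) < N := by simp [hN]
  have hmt := hY (Fin D → Bool) (cubeWalk D) (fun _ => 1 / N) cubeWalk_nonneg (cubeWalk_row hDpos)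
    (fun _ => by positivity) (by simp [hcard]) (fun i j => by rw [cubeWalk_symm]) F t ht
  have hst := stochastic_pow (cubeWalk D) cubeWalk_nonneg (cubeWalk_row hDpos) t
  have hL : ∀ x, (c * t / 4) ^ p ≤ ∑ y, (cubeWalk D ^ t) x y * ‖F x - F y‖ ^ p := by
    intro x
    refine le_trans ?_ (Real.rpow_arith_mean_le_arith_mean_rpow univ _ _ (fun y _ => hst.1 x y)
      (hst.2 x) (fun y _ => norm_nonneg _) hp.le)
    refine Real.rpow_le_rpow (by positivity) ?_ (by linarith)
    have h1 := cubeWalk_spread (by omega : 2 ≤ D) x t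
    have h2 : (t : ℝ) ^ 2 / D = t / 2 := by
      simp only [hD]
      push_cast
      field_simp
    calc c * t / 4 ≤ c * (∑ y, (cubeWalk D ^ t) x y * cubeDist x y) - c * t / 4 := by
          nlinarith [mul_le_mul_of_nonneg_left h1 hc.le]
      _ = ∑ y, (cubeWalk D ^ t) x y * (c * cubeDist x y - c * t / 4) := by
          simp only [mul_sub, sum_sub_distrib, ← sum_mul, hst.2 x, one_mul, mul_sum]
          congr 1
          exact sum_congr rfl fun y _ => by ring
      _ ≤ _ := sum_le_sum fun y _ => mul_le_mul_of_nonneg_left (hlow x y) (hst.1 x y)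
  have hR : ∀ x, ∑ y, cubeWalk D x y * ‖F x - F y‖ ^ p ≤ (2 * C + 2) ^ p := by
    intro x
    rw [cubeWalk_sum x (fun y => ‖F x - F y‖ ^ p)]
    refine (sum_le_sum (g := fun _ => (1 / D : ℝ) * (2 * C + 2) ^ p) fun i _ =>
      mul_le_mul_of_nonneg_left (Real.rpow_le_rpow (norm_nonneg _) (hup x i) (by linarith))
        (by positivity)).trans_eq ?_
    simp
    field_simp
  have hKp : 0 ≤ K ^ p * (t : ℝ) := by positivity
  simp only [mul_assoc, ← mul_sum] at hmt
  have hL' : (c * t / 4) ^ p ≤ 1 / N * ∑ x, ∑ y, (cubeWalk D ^ t) x y * ‖F x - F y‖ ^ p := by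
    refine le_trans ?_ (mul_le_mul_of_nonneg_left (sum_le_sum fun x _ => hL x) (by positivity))
    simp [hcard]
    field_simp
    rfl
  have hR' : (1 / N : ℝ) * ∑ x, ∑ y, cubeWalk D x y * ‖F x - F y‖ ^ p ≤ (2 * C + 2) ^ p := by
    refine le_trans (mul_le_mul_of_nonneg_left (sum_le_sum fun x _ => hR x) (by positivity)) ?_
    simp [hcard]
    field_simp
    rfl
  calc _ ≤ _ := hL'
    _ ≤ _ := hmt
    _ ≤ _ := by
      rw [← mul_assoc]
      exact mul_le_mul_of_nonneg_left hR' hKp

/-- The average of the `x`-th block of length `Q`. -/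
noncomputable def blockAvg (z : ℕ → Y) (Q x : ℕ) : Y :=
  ∑ q ∈ range Q, ((1 : ℝ) / Q) • z (x * Q + q)

lemma norm_blockAvg_le {z : ℕ → Y} (hz : ∀ j, ‖z j‖ ≤ 1) (Q x : ℕ) : ‖blockAvg z Q x‖ ≤ 1 := by
  have h : blockAvg z Q x = blockVec z 1 Q (fun _ q => x * Q + q) := by
    simp [blockAvg, blockVec]
  rw [h]
  exact_mod_cast norm_blockVec_le hz 1 Q _

lemma norm_alt_sum_le {z : ℕ → Y} (hz : ∀ j, ‖z j‖ ≤ 1) (Q n : ℕ) (σ : ℕ → ℕ) (o : ℕ) :
    ‖∑ j ∈ range n, (-1 : ℝ) ^ (o + j) • blockAvg z Q (σ j)‖ ≤ n := by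
  refine (norm_sum_le _ _).trans ((sum_le_sum (g := fun _ => (1 : ℝ)) fun j _ => ?_).trans_eq ?_)
  · rw [norm_smul, norm_pow, norm_neg, norm_one, one_pow, one_mul]
    exact norm_blockAvg_le hz _ _
  · simp

/-- Grouping `k` blocks of length `Q` does not increase the homogenised value. -/
lemma homog_group {z : ℕ → Y} {M L k Q : ℕ} {Φ Ψ η : ℝ} (hk : 0 < k) (hM : L * (k * Q) ≤ M)
    (hΦ : Homog z M L Q Φ η) (hΨ : Homog z M L (k * Q) Ψ η) : Ψ ≤ Φ + 2 * η := by
  let f : ℕ → ℕ → ℕ := fun l x => l * (k * Q) + x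
  have hf : IsBlocks M L (k * Q) f := by
    refine ⟨fun l u hl hu => ?_, fun l l' u u' hl _ hu _ => ?_, fun l u u' _ _ _ h => ?_⟩
    · have := Nat.mul_le_mul_right (k * Q) hl
      simp only [f]
      rw [Nat.succ_mul] at this
      omega
    · have := Nat.mul_le_mul_right (k * Q) hl
      simp only [f]
      rw [Nat.succ_mul] at this
      omega
    · simpa [f] using h
  let g : ℕ → ℕ → ℕ → ℕ := fun v l q => l * (k * Q) + (v * Q + q)
  have hin : ∀ v q, v < k → q < Q → v * Q + q < k * Q := by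
    intro v q hv hq
    have := Nat.mul_le_mul_right Q hv
    rw [Nat.succ_mul] at this
    omega
  have hg : ∀ v, v < k → IsBlocks M L Q (g v) := fun v hv =>
    ⟨fun l u hl hu => hf.lt l _ hl (hin v u hv hu),
      fun l l' u u' hl hl' hu hu' => hf.sep l l' _ _ hl hl' (hin v u hv hu) (hin v u' hv hu'),
      fun l u u' _ _ _ h => by simpa [g] using h⟩
  have hsum : blockVec z L (k * Q) f = ∑ v ∈ range k, ((1 : ℝ) / k) • blockVec z L Q (g v) := by
    simp only [blockVec, smul_sum, smul_smul, sum_range_split]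
    rw [sum_comm]
    refine sum_congr rfl fun v _ => sum_congr rfl fun l _ => sum_congr rfl fun q _ => ?_
    simp [f, g, div_eq_mul_inv, mul_comm, mul_left_comm, mul_assoc]
  have h1 : ‖blockVec z L (k * Q) f‖ ≤ Φ + η := by
    rw [hsum]
    refine (norm_sum_le _ _).trans
      ((sum_le_sum (g := fun _ => (1 / k : ℝ) * (Φ + η)) fun v hv => ?_).trans_eq ?_)
    · rw [norm_smul, Real.norm_of_nonneg (by positivity)]
      refine mul_le_mul_of_nonneg_left ?_ (by positivity)
      linarith [(abs_le.1 (hΦ _ (hg v (mem_range.1 hv)))).2]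
    · simp
      field_simp
  linarith [(abs_le.1 (hΨ f hf)).1]

/-- A large block value which survives grouping gives a contradiction with Markov type. -/
lemma graph_contra (hW : WalkStmt.{u}) {p K : ℝ} (hp : 1 < p) (hK : 0 ≤ K)
    (hY : MarkovTypeWith Y p K) {z : ℕ → Y} (hz : ∀ j, ‖z j‖ ≤ 1) {M k r Q S : ℕ} (hk : 1 ≤ k)
    (hQ : 1 ≤ Q) (hr : 1 ≤ r) {A A' η : ℝ} (hη : 0 ≤ η) (hη1 : η ≤ 1)
    (hH : Homog z M (2 * r) Q A η) (hH' : Homog z M (2 * r) (k * Q) A' η)
    (hA' : 8 * (k : ℝ) - 1 ≤ A') (hA : A ≤ 2 * A') (hAA : A' ≤ A + 2)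
    {VA VB E : Type} [Fintype VA] [Fintype VB] [Fintype E] (a : E → VA) (b : E → VB)
    (s : E → ℕ → ℕ) (hE : 0 < Fintype.card E)
    (hcard : (Fintype.card VA : ℝ) + Fintype.card VB ≤ 1 / k * Fintype.card E)
    (hmono : ∀ e j, j < 2 * r + 2 * k - 1 → s e j < s e (j + 1))
    (hcoh : ∀ (e : ℕ → E) (side : ℕ → Bool), (∀ t, side (t + 1) = !side t) →
        (∀ t, t + 1 < k → e t ≠ e (t + 1) ∧
          (if side t then a (e t) = a (e (t + 1)) else b (e t) = b (e (t + 1)))) →
        ∃ c : ℕ → ℕ, (∀ t, t < k → c t ≤ 2 * k ∧ (c t + t + k) % 2 = 0) ∧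
          (∀ l t t', l + 1 + 2 * k ≤ 2 * r + 2 * k - 1 → t < k → t' < k →
            s (e t) (c t + l) < s (e t') (c t' + l + 1)) ∧
          (∀ l t t', l + 2 * k ≤ 2 * r + 2 * k - 1 → t < k → t' < k → t ≠ t' →
            s (e t) (c t + l) ≠ s (e t') (c t' + l)))
    (hS : ∀ e j, j ≤ 2 * r + 2 * k - 1 → s e j < S) (hM : S * Q ≤ M) :
    (k : ℝ) ^ p ≤ 2 * k * (12 * K) ^ p := by
  have hk' : (1 : ℝ) ≤ k := by exact_mod_cast hk
  set m := 2 * r + 2 * k - 1 with hm
  have hmono' : ∀ e i j, i ≤ j → j ≤ m → s e i ≤ s e j := by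
    intro e i j hij hj
    induction j, hij using Nat.le_induction with
    | base => rfl
    | succ j hij ih => exact (ih (by omega)).trans (hmono e j (by omega)).le
  have hlow : ∀ e j q, j ≤ m → q < Q → s e j * Q + q < M := by
    intro e j q hj hq
    have := Nat.mul_le_mul_right Q (hS e j hj)
    rw [Nat.succ_mul] at this
    omega
  have hsep : ∀ x y q q' : ℕ, x < y → q < Q → x * Q + q < y * Q + q' := by
    intro x y q q' hxy hq
    have := Nat.mul_le_mul_right Q hxy
    rw [Nat.succ_mul] at this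
    omega
  let w : E → Y := fun e => ∑ j ∈ range (2 * r + 2 * k), (-1 : ℝ) ^ j • blockAvg z Q (s e j)
  have hw : ∀ e, ‖w e‖ ≤ 2 * A := by
    intro e
    let f : ℕ → ℕ → ℕ := fun l q => s e l * Q + q
    have hf : IsBlocks M (2 * r) Q f := by
      refine ⟨fun l u hl hu => hlow e l u (by omega) hu,
        fun l l' u u' hl hl' hu _ => hsep _ _ _ _ ?_ hu, fun l u u' _ _ _ h => by simpa [f] using h⟩
      exact lt_of_lt_of_le (hmono e l (by omega)) (hmono' e (l + 1) l' hl (by omega))
    have h1 : ∑ j ∈ range (2 * r), (-1 : ℝ) ^ j • blockAvg z Q (s e j) = blockVec z (2 * r) Q f := by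
      simp [blockAvg, blockVec, f, smul_sum, smul_smul, div_eq_mul_inv]
    simp only [w, sum_range_add]
    refine (norm_add_le _ _).trans ?_
    rw [h1]
    have h2 := norm_alt_sum_le hz Q (2 * k) (fun j => s e (2 * r + j)) (2 * r)
    have h3 := (abs_le.1 (hH f hf)).2
    push_cast at h2 ⊢
    linarith
  have hgood : ∀ (e : ℕ → E) (side : ℕ → Bool), (∀ t, side (t + 1) = !side t) →
      (∀ t, t + 1 < k → e t ≠ e (t + 1) ∧
        (if side t then a (e t) = a (e (t + 1)) else b (e t) = b (e (t + 1)))) →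
      (k : ℝ) * A / 6 ≤ ‖∑ t ∈ range k, (-1 : ℝ) ^ t • w (e t)‖ := by
    intro e side hside hpath
    obtain ⟨c, hc, hlt, hne⟩ := hcoh e side hside hpath
    let f : ℕ → ℕ → ℕ := fun l x => s (e (x / Q)) (c (x / Q) + l) * Q + x % Q
    have hdiv : ∀ x, x < k * Q → x / Q < k ∧ x % Q < Q := fun x hx =>
      ⟨(Nat.div_lt_iff_lt_mul hQ).2 hx, Nat.mod_lt _ hQ⟩
    have hf : IsBlocks M (2 * r) (k * Q) f := by
      refine ⟨fun l u hl hu => ?_, fun l l' u u' hl hl' hu hu' => ?_, fun l u u' hl hu hu' h => ?_⟩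
      · obtain ⟨h1, h2⟩ := hdiv u hu
        exact hlow _ _ _ (by have := (hc _ h1).1; omega) h2
      · obtain ⟨h1, h2⟩ := hdiv u hu
        obtain ⟨h1', _⟩ := hdiv u' hu'
        refine hsep _ _ _ _ (lt_of_lt_of_le (hlt l _ _ (by omega) h1 h1') ?_) h2
        have := (hc _ h1').1
        exact hmono' _ _ _ (by omega) (by omega)
      · obtain ⟨h1, h2⟩ := hdiv u hu
        obtain ⟨h1', h2'⟩ := hdiv u' hu'
        have heq : s (e (u / Q)) (c (u / Q) + l) = s (e (u' / Q)) (c (u' / Q) + l) := by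
          rcases lt_trichotomy (s (e (u / Q)) (c (u / Q) + l))
            (s (e (u' / Q)) (c (u' / Q) + l)) with h' | h' | h'
          · exact absurd h (hsep _ _ _ _ h' h2).ne
          · exact h'
          · exact absurd h (hsep _ _ _ _ h' h2').ne'
        have hd : u / Q = u' / Q := by
          by_contra hd
          exact hne l _ _ (by omega) h1 h1' hd heq
        have hmod : u % Q = u' % Q := by
          simp only [f, heq] at h
          omega
        rw [← Nat.div_add_mod u Q, ← Nat.div_add_mod u' Q, hd, hmod]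
    let R : ℕ → Y := fun t =>
      (∑ j ∈ range (c t), (-1 : ℝ) ^ (t + j) • blockAvg z Q (s (e t) j)) +
        ∑ j ∈ range (2 * k - c t),
          (-1 : ℝ) ^ (t + c t + 2 * r + j) • blockAvg z Q (s (e t) (c t + 2 * r + j))
    have hsplit : ∀ t, t < k → (-1 : ℝ) ^ t • w (e t) =
        (∑ l ∈ range (2 * r), (-1 : ℝ) ^ (k + l) • blockAvg z Q (s (e t) (c t + l))) + R t := by
      intro t ht
      obtain ⟨hct, hpar⟩ := hc t ht
      have hlen : 2 * r + 2 * k = c t + 2 * r + (2 * k - c t) := by omega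
      simp only [w, R]
      rw [hlen, sum_range_add, sum_range_add, smul_add, smul_add, smul_sum, smul_sum, smul_sum]
      simp only [smul_smul, ← pow_add]
      rw [add_comm (∑ x ∈ range (c t), _) (∑ x ∈ range (2 * r), _), add_assoc]
      congr 1
      · refine sum_congr rfl fun l _ => ?_
        congr 1
        exact neg_one_pow_congr (by simp only [Nat.even_iff]; omega)
      · simp only [← add_assoc]
    have hR : ∀ t, t < k → ‖R t‖ ≤ 2 * k := by
      intro t ht
      have hct := (hc t ht).1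
      refine (norm_add_le _ _).trans ?_
      have h1 := norm_alt_sum_le hz Q (c t) (fun j => s (e t) j) t
      have h2 := norm_alt_sum_le hz Q (2 * k - c t) (fun j => s (e t) (c t + 2 * r + j))
        (t + c t + 2 * r)
      push_cast [Nat.cast_sub hct] at h2
      linarith
    have hmain : ∑ t ∈ range k, ∑ l ∈ range (2 * r),
        (-1 : ℝ) ^ (k + l) • blockAvg z Q (s (e t) (c t + l)) =
          ((-1 : ℝ) ^ k * k) • blockVec z (2 * r) (k * Q) f := by
      simp only [blockVec, blockAvg, smul_sum, smul_smul]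
      rw [sum_comm]
      refine sum_congr rfl fun l _ => ?_
      rw [sum_range_split _ k Q]
      refine sum_congr rfl fun t _ => sum_congr rfl fun q hq => ?_
      have hq' := mem_range.1 hq
      have h1 : (t * Q + q) / Q = t := by
        rw [Nat.mul_comm, Nat.mul_add_div hQ, Nat.div_eq_of_lt hq', add_zero]
      have h2 : (t * Q + q) % Q = q := by
        rw [Nat.mul_add_mod', Nat.mod_eq_of_lt hq']
      simp only [f, h1, h2]
      congr 1
      push_cast
      rw [pow_add]
      field_simp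
    rw [sum_congr rfl (fun t ht => hsplit t (mem_range.1 ht)), sum_add_distrib, hmain]
    refine le_trans ?_ (norm_sub_le_norm_add _ _)
    have h1 : ‖∑ t ∈ range k, R t‖ ≤ k * (2 * k : ℝ) :=
      (norm_sum_le _ _).trans
        ((sum_le_sum fun t ht => hR t (mem_range.1 ht)).trans_eq (by simp))
    have h2 := (abs_le.1 (hH' f hf)).1
    have h3 : ‖((-1 : ℝ) ^ k * k) • blockVec z (2 * r) (k * Q) f‖ =
        k * ‖blockVec z (2 * r) (k * Q) f‖ := by
      rw [norm_smul, norm_mul, norm_pow, norm_neg, norm_one, one_pow, one_mul, RCLike.norm_natCast]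
    rw [h3]
    nlinarith
  have hA0 : 0 < A := by linarith
  have hmain := hW Y p K hp hK hY VA VB E a b w k ((k : ℝ) * A / 6) hk (by positivity) hgood
  have hEpos : (0 : ℝ) < Fintype.card E := by exact_mod_cast hE
  have h1 : (Fintype.card E : ℝ) ≤ 2 * (Fintype.card E : ℝ) -
      (k : ℝ) * ((Fintype.card VA : ℝ) + Fintype.card VB) := by
    have := mul_le_mul_of_nonneg_left hcard (by positivity : (0 : ℝ) ≤ k)
    rw [← mul_assoc, mul_one_div, div_self (by positivity), one_mul] at this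
    linarith
  have h2 : ∑ e, ‖w e‖ ^ p ≤ (Fintype.card E : ℝ) * (2 * A) ^ p :=
    (sum_le_sum fun e _ => Real.rpow_le_rpow (norm_nonneg _) (hw e) (by linarith)).trans_eq
      (by simp)
  have h3 : (Fintype.card E : ℝ) * ((k : ℝ) * A / 6) ^ p ≤
      (Fintype.card E : ℝ) * (2 * k * K ^ p * (2 * A) ^ p) := by
    calc (Fintype.card E : ℝ) * ((k : ℝ) * A / 6) ^ p ≤ _ :=
          mul_le_mul_of_nonneg_right h1 (by positivity)
      _ ≤ _ := hmain
      _ ≤ K ^ p * k * (2 * ((Fintype.card E : ℝ) * (2 * A) ^ p)) := by gcongr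
      _ = _ := by ring
  have h4 := le_of_mul_le_mul_left h3 hEpos
  rw [show (k : ℝ) * A / 6 = k * (A / 6) by ring, Real.mul_rpow (by positivity) (by positivity),
    show 2 * A = 12 * (A / 6) by ring, Real.mul_rpow (by norm_num : (0:ℝ) ≤ 12) (by positivity)] at h4
  rw [Real.mul_rpow (by norm_num : (0:ℝ) ≤ 12) hK]
  nlinarith [Real.rpow_pos_of_pos (by positivity : (0 : ℝ) < A / 6) p]

theorem noSummingStmt_of (hW : WalkStmt.{u}) : NoSummingStmt.{u} := by
  intro p K c hp hK hc
  classical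
  have hev : ∀ R : ℝ, ∃ k : ℕ, 4 ≤ k ∧ R < (k : ℝ) ^ (p - 1) := by
    intro R
    have h := (((tendsto_rpow_atTop (by linarith : 0 < p - 1)).comp
      tendsto_natCast_atTop_atTop).eventually_gt_atTop R).and (Filter.eventually_ge_atTop 4)
    obtain ⟨k, h1, h2⟩ := h.exists
    exact ⟨k, h2, h1⟩
  obtain ⟨k, hk4, hk⟩ := hev (2 * (12 * K) ^ p)
  obtain ⟨t, ht4, ht⟩ := hev ((4 * K * (16 * k + 2) / c) ^ p)
  set N := 2 ^ (2 * t) with hN
  have hcfg : ∀ r : ℕ, ∃ S : ℕ, ∃ (A B E : Type) (_ : Fintype A) (_ : Fintype B) (_ : Fintype E)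
      (a : E → A) (b : E → B) (s : E → ℕ → ℕ),
      (∀ e j, j ≤ 2 * r + 2 * k - 1 → s e j < S) ∧ 0 < Fintype.card E ∧
      ((Fintype.card A : ℝ) + Fintype.card B ≤ 1 / k * Fintype.card E) ∧
      (∀ e j, j < 2 * r + 2 * k - 1 → s e j < s e (j + 1)) ∧
      ∀ (e : ℕ → E) (side : ℕ → Bool), (∀ t, side (t + 1) = !side t) →
        (∀ t, t + 1 < k → e t ≠ e (t + 1) ∧
          (if side t then a (e t) = a (e (t + 1)) else b (e t) = b (e (t + 1)))) →
        ∃ c : ℕ → ℕ, (∀ t, t < k → c t ≤ 2 * k ∧ (c t + t + k) % 2 = 0) ∧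
          (∀ l t t', l + 1 + 2 * k ≤ 2 * r + 2 * k - 1 → t < k → t' < k →
            s (e t) (c t + l) < s (e t') (c t' + l + 1)) ∧
          (∀ l t t', l + 2 * k ≤ 2 * r + 2 * k - 1 → t < k → t' < k → t ≠ t' →
            s (e t) (c t + l) ≠ s (e t') (c t' + l)) := by
    intro r
    obtain ⟨A, B, E, iA, iB, iE, a, b, s, hE, hcard, hmono, hcoh⟩ :=
      configStmt (2 * r + 2 * k - 1) (1 / k) (by omega) (by positivity)
    refine ⟨(∑ e, ∑ j ∈ range (2 * r + 2 * k - 1 + 1), s e j) + 1, A, B, E, iA, iB, iE, a, b, s,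
      fun e j hj => Nat.lt_succ_of_le ?_, hE, hcard, hmono, hcoh k⟩
    exact le_trans (single_le_sum (f := fun i => s e i) (fun i _ => Nat.zero_le _)
      (mem_range.2 (Nat.lt_succ_of_le hj))) (single_le_sum
        (f := fun x => ∑ i ∈ range (2 * r + 2 * k - 1 + 1), s x i) (fun i _ => Nat.zero_le _)
        (mem_univ e))
  choose S hcfg using hcfg
  set I := N + 1 with hI
  set η : ℝ := 1 / (2 * (I + 1)) with hη
  set T := (∑ r ∈ range (N + 1), S r) + 2 * N with hT
  obtain ⟨n, hn, hhom⟩ := exists_homog.{u}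
    ((range (N + 1) ×ˢ range (I + 1)).image fun x => (2 * x.1, k ^ x.2)) η
    (by positivity) (T * k ^ I)
  refine ⟨n, c / (16 * N), hn, by positivity, fun Y _ _ hY hsum => ?_⟩
  obtain ⟨z, Φ, hz, hH⟩ := hhom Y c _ hsum
  have hHom : ∀ r i, r ≤ N → i ≤ I →
      Homog z (T * k ^ I) (2 * r) (k ^ i) (Φ (2 * r, k ^ i)) η := fun r i hr hi =>
    hH (2 * r, k ^ i) (mem_image.2 ⟨(r, i), mem_product.2 ⟨mem_range.2 (by omega),
      mem_range.2 (by omega)⟩, rfl⟩)
  have hη0 : 0 ≤ η := by positivity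
  have hηI : 2 * η * (I + 1) = 1 := by
    rw [hη]
    field_simp
  have hη1 : η ≤ 1 := by nlinarith [Nat.cast_nonneg (α := ℝ) I]
  have hk1 : 1 ≤ k := by omega
  have hk4' : (4 : ℝ) ≤ k := by exact_mod_cast hk4
  have hpk : ∀ i, i ≤ I → k ^ i ≤ k ^ I := fun i hi => Nat.pow_le_pow_right hk1 hi
  by_cases hbig : ∀ r, 1 ≤ r → r ≤ N → Φ (2 * r, k ^ I) ≤ 8 * k
  · have h := cube_contra hp hK hY (z := z) (M := T * k ^ I) (B := k ^ I) (t := t) (C := 8 * k)
      (η := η) (δ := c / (16 * N)) (Φ := fun r => Φ (2 * r, k ^ I)) hc (by omega)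
      (by positivity) (by positivity) hη0 hη1 (by positivity) (by
        simp only [hN]
        push_cast
        exact le_of_eq (div_mul_cancel₀ _ (by positivity)))
      (Nat.mul_le_mul_right _ (by omega)) hz
      (fun r _ hr => hHom r I hr le_rfl) hbig
    have ht0 : (0 : ℝ) < t := by exact_mod_cast (show 0 < t by omega)
    have hK4 : 0 ≤ 4 * K * (16 * k + 2) / c := by positivity
    have h1 : (c * t / 4) ^ p = (t : ℝ) ^ (p - 1) * t * (c / 4) ^ p := by
      rw [show c * t / 4 = (t : ℝ) * (c / 4) by ring, Real.mul_rpow ht0.le (by positivity)]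
      congr 1
      rw [← Real.rpow_add_one ht0.ne', sub_add_cancel]
    have h2 : (4 * K * (16 * k + 2) / c) ^ p * (c / 4) ^ p = K ^ p * (16 * k + 2 : ℝ) ^ p := by
      rw [← Real.mul_rpow hK4 (by positivity), ← Real.mul_rpow hK (by positivity)]
      congr 1
      field_simp
    rw [h1, show (2 * (8 * (k : ℝ)) + 2) = 16 * k + 2 by ring] at h
    have hc4 : 0 < (c / 4) ^ p := by positivity
    nlinarith [mul_lt_mul_of_pos_right ht (mul_pos ht0 hc4)]
  · push Not at hbig
    obtain ⟨r, hr1, hrN, hr⟩ := hbig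
    obtain ⟨φ, hφ⟩ : ∃ φ : ℕ → ℝ, ∀ i, φ i = Φ (2 * r, k ^ i) := ⟨_, fun _ => rfl⟩
    have hTr : 2 * r ≤ T := by omega
    have hstep : ∀ i, i < I → φ (i + 1) ≤ φ i + 2 * η := by
      intro i hi
      have h := hHom r (i + 1) hrN hi
      rw [pow_succ' k i] at h
      rw [hφ, hφ, pow_succ' k i]
      refine homog_group (by omega) ?_ (hHom r i hrN hi.le) h
      rw [← pow_succ' k i]
      exact Nat.mul_le_mul hTr (hpk _ hi)
    have hge : ∀ d, d ≤ I → φ I - 2 * η * d ≤ φ (I - d) := by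
      intro d hd
      induction d with
      | zero => simp
      | succ d ih =>
        have := hstep (I - (d + 1)) (by omega)
        rw [show I - (d + 1) + 1 = I - d by omega] at this
        push_cast
        linarith [ih (by omega)]
    have hφI : 8 * (k : ℝ) < φ I := by rw [hφ]; exact hr
    have hφ0 : φ 0 ≤ 2 * r + η := by
      have hf : IsBlocks (T * k ^ I) (2 * r) (k ^ 0) (fun l _ => l) := by
        refine ⟨fun l u hl _ => ?_, fun l l' u u' h _ _ _ => h, fun l u u' _ hu hu' _ => ?_⟩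
        · exact lt_of_lt_of_le hl (le_mul_of_le_of_one_le hTr (Nat.one_le_pow _ _ (by omega)))
        · simp at hu hu'
          omega
      have h1 := (abs_le.1 (hHom r 0 hrN (Nat.zero_le _) _ hf)).1
      have h2 := norm_blockVec_le hz.1 (2 * r) (k ^ 0) (fun l _ => l)
      push_cast at h2
      rw [hφ]
      linarith
    obtain ⟨i, hi, hhalf⟩ : ∃ i, i < I ∧ φ i ≤ 2 * φ (i + 1) := by
      by_contra hno
      push Not at hno
      have hgrow : ∀ d, d ≤ I → (2 : ℝ) ^ d * φ I ≤ φ (I - d) := by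
        intro d hd
        induction d with
        | zero => simp
        | succ d ih =>
          have := hno (I - (d + 1)) (by omega)
          rw [show I - (d + 1) + 1 = I - d by omega] at this
          rw [pow_succ]
          linarith [ih (by omega)]
      have h1 := hgrow I le_rfl
      rw [Nat.sub_self] at h1
      have h2 : (I : ℝ) + 1 ≤ (2 : ℝ) ^ I := by
        exact_mod_cast Nat.lt_two_pow_self
      have h3 : (r : ℝ) ≤ N := by exact_mod_cast hrN
      have h4 : (I : ℝ) = N + 1 := by rw [hI]; push_cast; ring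
      have h5 : (2 : ℝ) ^ I * 32 ≤ 2 ^ I * φ I :=
        mul_le_mul_of_nonneg_left (by linarith) (by positivity)
      have h6 : (0 : ℝ) ≤ N := Nat.cast_nonneg _
      linarith
    have hA' : 8 * (k : ℝ) - 1 ≤ φ (i + 1) := by
      have h := hge (I - (i + 1)) (Nat.sub_le _ _)
      rw [show I - (I - (i + 1)) = i + 1 by omega] at h
      have : ((I - (i + 1) : ℕ) : ℝ) ≤ I := by exact_mod_cast Nat.sub_le _ _
      nlinarith
    obtain ⟨VA, VB, E, iA, iB, iE, a, b, s, hS, hE, hcard, hmono, hcoh⟩ := hcfg r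
    have hH2 := hHom r (i + 1) hrN hi
    rw [pow_succ' k i] at hH2
    have hH1 := hHom r i hrN hi.le
    rw [← hφ] at hH1
    rw [hφ (i + 1), pow_succ' k i] at hA'
    have hfin := graph_contra hW hp hK hY hz.1 hk1 (Nat.one_le_pow i k (by omega)) hr1 hη0 hη1
      hH1 hH2 hA' (by
        have := hhalf
        rwa [hφ (i + 1), pow_succ' k i] at this) (by
        have := hstep i hi
        rw [hφ (i + 1), pow_succ' k i] at this
        linarith) a b s hE hcard hmono hcoh hS
      (Nat.mul_le_mul ((single_le_sum (fun x _ => Nat.zero_le (S x))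
        (mem_range.2 (by omega : r < N + 1))).trans (Nat.le_add_right _ _)) (hpk i hi.le))
    have hk0 : (0 : ℝ) < k := by linarith
    have : (k : ℝ) ^ p = (k : ℝ) ^ (p - 1) * k := by
      rw [← Real.rpow_add_one hk0.ne', sub_add_cancel]
    rw [this] at hfin
    nlinarith

end Vale.Agent.P125
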