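import Vale.Agent.P125.Renorm.Tree

/-!
Piece A: a one-scale gain for martingales gives an equivalent uniformly smooth norm.
-/

namespace Vale.Agent.P125

open scoped BigOperators
open Real

universe u

namespace BTree

variable {X : Type u} [NormedAddCommGroup X] [NormedSpace ℝ X]

/-- Negate all increments. -/
def neg : BTree X → BTree X
  | .leaf => .leaf
  | .node d l r => .node (-d) (neg l) (neg r)

theorem cost_neg (q : ℝ) : ∀ T : BTree X, cost q T.neg = cost q T
  | .leaf => rfl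
  | .node d l r => by simp [neg, cost, cost_neg q l, cost_neg q r]

theorem ex_neg : ∀ (T : BTree X) (x : X), ex (fun z => ‖z‖) T.neg (-x) = ex (fun z => ‖z‖) T x
  | .leaf, x => by simp [neg, ex]
  | .node d l r, x => by
      simp only [neg, ex]
      rw [show -x + -d = -(x + d) by abel, show -x - -d = -(x - d) by abel, ex_neg l, ex_neg r]

theorem ex_lip : ∀ (T : BTree X) (x y : X),
    ex (fun z => ‖z‖) T x ≤ ex (fun z => ‖z‖) T y + ‖x - y‖
  | .leaf, x, y => by simpa [ex] using norm_le_norm_add_norm_sub' x y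
  | .node d l r, x, y => by
      have h1 := ex_lip l (x + d) (y + d)
      have h2 := ex_lip r (x - d) (y - d)
      rw [add_sub_add_right_eq_sub] at h1
      rw [sub_sub_sub_cancel_right] at h2
      simp only [ex]; linarith

theorem ex_convex {a b : ℝ} (ha : 0 ≤ a) (hb : 0 ≤ b) (hab : a + b = 1) :
    ∀ (T : BTree X) (x y : X), ex (fun z => ‖z‖) T (a • x + b • y) ≤
      a * ex (fun z => ‖z‖) T x + b * ex (fun z => ‖z‖) T y
  | .leaf, x, y => by
      refine (norm_add_le _ _).trans (le_of_eq ?_)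
      simp [ex, norm_smul, abs_of_nonneg ha, abs_of_nonneg hb]
  | .node d l r, x, y => by
      have h1 := ex_convex ha hb hab l (x + d) (y + d)
      have h2 := ex_convex ha hb hab r (x - d) (y - d)
      have hd : a • d + b • d = d := by rw [← add_smul, hab, one_smul]
      rw [smul_add, smul_add, add_add_add_comm, hd] at h1
      rw [smul_sub, smul_sub, sub_add_sub_comm, hd] at h2
      simp only [ex]; linarith

/-- The renorming function. -/
noncomputable def F (q C : ℝ) (x : X) : ℝ :=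
  ⨆ T : BTree X, (ex (fun z => ‖z‖) T x - C * cost q T)

variable {q C : ℝ}

section
variable (h : ∀ T : BTree X, ex (fun z => ‖z‖) T 0 ≤ C * (1 + cost q T))
include h

theorem bddAbove_F (x : X) :
    BddAbove (Set.range fun T : BTree X => ex (fun z => ‖z‖) T x - C * cost q T) := by
  refine ⟨‖x‖ + C, ?_⟩
  rintro _ ⟨T, rfl⟩
  have := ex_lip T x 0
  have := h T
  simp only [sub_zero] at *
  nlinarith

theorem le_F (T : BTree X) (x : X) : ex (fun z => ‖z‖) T x - C * cost q T ≤ F q C x :=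
  le_ciSup (bddAbove_F h x) T

theorem norm_le_F (x : X) : ‖x‖ ≤ F q C x := by
  simpa [ex, cost] using le_F h .leaf x

theorem F_le (x : X) : F q C x ≤ ‖x‖ + C := by
  haveI : Nonempty (BTree X) := ⟨.leaf⟩
  refine ciSup_le fun T => ?_
  have := ex_lip T x 0
  have := h T
  simp only [sub_zero] at *
  nlinarith

theorem F_lip (x y : X) : F q C x ≤ F q C y + ‖x - y‖ := by
  haveI : Nonempty (BTree X) := ⟨.leaf⟩
  refine ciSup_le fun T => ?_
  have := ex_lip T x y
  have := le_F h T y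
  linarith

theorem F_convex {a b : ℝ} (ha : 0 ≤ a) (hb : 0 ≤ b) (hab : a + b = 1) (x y : X) :
    F q C (a • x + b • y) ≤ a * F q C x + b * F q C y := by
  haveI : Nonempty (BTree X) := ⟨.leaf⟩
  refine ciSup_le fun T => ?_
  have h1 := ex_convex ha hb hab T x y
  have h2 := mul_le_mul_of_nonneg_left (le_F h T x) ha
  have h3 := mul_le_mul_of_nonneg_left (le_F h T y) hb
  have h4 : a * (C * cost q T) + b * (C * cost q T) = C * cost q T := by
    rw [← add_mul, hab, one_mul]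
  linarith

theorem F_neg (x : X) : F q C (-x) ≤ F q C x := by
  haveI : Nonempty (BTree X) := ⟨.leaf⟩
  refine ciSup_le fun T => ?_
  have h2 := le_F h T.neg x
  rw [cost_neg] at h2
  rw [← ex_neg T (-x), neg_neg]
  exact h2

theorem F_graft (x y : X) :
    (F q C (x + y) + F q C (x - y)) / 2 ≤ F q C x + C * ‖y‖ ^ q := by
  haveI : Nonempty (BTree X) := ⟨.leaf⟩
  have h1 : ∀ T₁ : BTree X, F q C (x - y) ≤
      2 * (F q C x + C * ‖y‖ ^ q) - (ex (fun z => ‖z‖) T₁ (x + y) - C * cost q T₁) := by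
    intro T₁
    refine ciSup_le fun T₂ => ?_
    have := le_F h (.node y T₁ T₂) x
    simp only [ex, cost] at this
    linarith
  have h2 : F q C (x + y) ≤ 2 * (F q C x + C * ‖y‖ ^ q) - F q C (x - y) :=
    ciSup_le fun T₁ => by have := h1 T₁; linarith
  linarith

end

end BTree

open BTree Pointwise in
theorem exists_seminorm {X : Type u} [NormedAddCommGroup X] [NormedSpace ℝ X] {q C : ℝ}
    (hC : 0 < C) (h : ∀ T : BTree X, ex (fun z => ‖z‖) T 0 ≤ C * (1 + BTree.cost q T)) :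
    ∃ N : Seminorm ℝ X, (∀ z, ‖z‖ ≤ (2 * C + 1) * N z) ∧ (∀ z, N z ≤ ‖z‖ / (C + 1)) ∧
      (∀ z, N z = 1 → F q C z = 2 * C + 1) ∧
      ∀ m, N m ≤ 1 → F q C m ≤ N m * (2 * C + 1) + (1 - N m) * C := by
  classical
  set c : ℝ := 2 * C + 1 with hc
  have hc0 : 0 < c := by linarith
  set K : Set X := {x | F q C x ≤ c} with hK
  have hconv : Convex ℝ K := by
    intro x hx y hy a b ha hb hab
    have := F_convex h ha hb hab x y
    have h1 := mul_le_mul_of_nonneg_left hx ha
    have h2 := mul_le_mul_of_nonneg_left hy hb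
    have h3 : a * c + b * c = c := by rw [← add_mul, hab, one_mul]
    simp only [hK, Set.mem_setOf_eq] at *
    linarith
  have hbal : Balanced ℝ K := by
    intro a ha
    rintro _ ⟨x, hx, rfl⟩
    have hxn : F q C (-x) ≤ c := (F_neg h x).trans hx
    have ha' := abs_le.1 (by simpa [Real.norm_eq_abs] using ha : |a| ≤ 1)
    have := hconv hx hxn (show 0 ≤ (1 + a) / 2 by linarith) (show 0 ≤ (1 - a) / 2 by linarith)
      (by ring)
    rw [show ((1 + a) / 2) • x + ((1 - a) / 2) • -x = a • x by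
      rw [smul_neg, ← sub_eq_add_neg, ← sub_smul]; congr 1; ring] at this
    exact this
  have hball : ∀ x : X, ‖x‖ ≤ C + 1 → x ∈ K := fun x hx => by
    have := F_le h x
    simp only [hK, Set.mem_setOf_eq]; linarith
  have habs : Absorbent ℝ K := absorbent_nhds_zero <| Metric.mem_nhds_iff.2
    ⟨C + 1, by linarith, fun x hx => hball x (mem_ball_zero_iff.1 hx).le⟩
  set N : Seminorm ℝ X := gaugeSeminorm hbal hconv habs with hN
  have hNg : ∀ x, N x = gauge K x := fun x => rfl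
  have hP1 : ∀ (z : X) (r : ℝ), N z < r → F q C (r⁻¹ • z) ≤ c := by
    intro z r hr
    obtain ⟨b, hb0, hbr, hmem⟩ := exists_lt_of_gauge_lt habs ((hNg z) ▸ hr)
    obtain ⟨w, hw, rfl⟩ := hmem
    refine hbal (r⁻¹ * b) ?_ ⟨w, hw, ?_⟩
    · rw [Real.norm_eq_abs, abs_of_nonneg (mul_nonneg (inv_nonneg.2 (hb0.trans hbr).le) hb0.le),
        inv_mul_le_one₀ (hb0.trans hbr)]
      exact hbr.le
    · simp [mul_smul]
  have hP2 : ∀ (z : X) (r : ℝ), 0 < r → F q C (r⁻¹ • z) ≤ c → N z ≤ r := by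
    intro z r hr hF
    rw [hNg]
    exact gauge_le_of_mem hr.le ⟨r⁻¹ • z, hF, by simp [smul_smul, hr.ne']⟩
  have hlow : ∀ z, ‖z‖ ≤ c * N z := by
    intro z
    refine le_of_forall_pos_le_add fun δ hδ => ?_
    have hN0 : 0 ≤ N z := apply_nonneg N z
    set r := N z + δ / c with hr
    have hr0 : 0 < r := by have : 0 < δ / c := div_pos hδ hc0; linarith
    have h1 := (norm_le_F h _).trans (hP1 z r (by have : 0 < δ / c := div_pos hδ hc0; linarith))
    rw [norm_smul, norm_inv, Real.norm_eq_abs, abs_of_pos hr0, inv_mul_le_iff₀ hr0] at h1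
    calc ‖z‖ ≤ r * c := h1
      _ = c * N z + δ := by rw [hr]; field_simp
  have hup : ∀ z, N z ≤ ‖z‖ / (C + 1) := by
    intro z
    by_cases hz : z = 0
    · simp [hz]
    have hr : 0 < ‖z‖ / (C + 1) := div_pos (norm_pos_iff.2 hz) (by linarith)
    refine hP2 z _ hr (hball _ ?_)
    rw [norm_smul, norm_inv, Real.norm_eq_abs, abs_of_pos hr, inv_div, div_mul_cancel₀ _
      (norm_ne_zero_iff.2 hz)]
  have hone : ∀ z, N z = 1 → F q C z = c := by
    intro z hz
    refine le_antisymm (le_of_forall_pos_le_add fun δ hδ => ?_) ?_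
    · set t := δ / (‖z‖ + 1) with ht
      have hz1 : 0 < ‖z‖ + 1 := by positivity
      have ht0 : 0 < t := div_pos hδ hz1
      have h1 := hP1 z (1 + t) (by linarith)
      have h2 := F_lip h z ((1 + t)⁻¹ • z)
      have h3 : ‖z - (1 + t)⁻¹ • z‖ ≤ δ := by
        rw [show z - (1 + t)⁻¹ • z = (1 - (1 + t)⁻¹) • z by rw [sub_smul, one_smul], norm_smul,
          Real.norm_eq_abs]
        have h4 : (1 + t)⁻¹ ≤ 1 := inv_le_one_of_one_le₀ (by linarith)
        have h5 : 1 - (1 + t)⁻¹ ≤ t := by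
          have h6 : 1 - (1 + t)⁻¹ = t / (1 + t) := by field_simp; ring
          rw [h6]; exact div_le_self ht0.le (by linarith)
        rw [abs_of_nonneg (by linarith)]
        calc (1 - (1 + t)⁻¹) * ‖z‖ ≤ t * (‖z‖ + 1) := by nlinarith [norm_nonneg z]
          _ = δ := div_mul_cancel₀ _ hz1.ne'
      linarith
    · by_contra hlt
      push Not at hlt
      set t := (c - F q C z) / (‖z‖ + 1) with ht
      have hz1 : 0 < ‖z‖ + 1 := by positivity
      have ht0 : 0 < t := div_pos (by linarith) hz1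
      have h3 : ‖(1 + t) • z - z‖ ≤ c - F q C z := by
        rw [show (1 + t) • z - z = t • z by rw [add_smul, one_smul]; abel, norm_smul,
          Real.norm_eq_abs, abs_of_pos ht0]
        calc t * ‖z‖ ≤ t * (‖z‖ + 1) := by nlinarith
          _ = _ := div_mul_cancel₀ _ hz1.ne'
      have h2 := F_lip h ((1 + t) • z) z
      have h1 := hP2 z (1 + t)⁻¹ (by positivity) (by rw [inv_inv]; linarith)
      rw [hz] at h1
      have : (1 + t)⁻¹ < 1 := inv_lt_one_of_one_lt₀ (by linarith)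
      linarith
  have hmid : ∀ m, N m ≤ 1 → F q C m ≤ N m * c + (1 - N m) * C := by
    intro m hm
    have hF0 : F q C (0 : X) ≤ C := by simpa using F_le h (0 : X)
    rcases (apply_nonneg N m).eq_or_lt with hm0 | hm0
    · have : m = 0 := norm_le_zero_iff.1 ((hlow m).trans (by rw [← hm0, mul_zero]))
      subst this
      rw [← hm0]; linarith
    · have hu : N ((N m)⁻¹ • m) = 1 := by
        rw [map_smul_eq_mul, Real.norm_eq_abs, abs_of_pos (inv_pos.2 hm0), inv_mul_cancel₀ hm0.ne']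
      have := F_convex h hm0.le (show 0 ≤ 1 - N m by linarith) (by ring) ((N m)⁻¹ • m) 0
      rw [smul_zero, add_zero, smul_smul, mul_inv_cancel₀ hm0.ne', one_smul, hone _ hu] at this
      nlinarith [mul_le_mul_of_nonneg_left hF0 (show 0 ≤ 1 - N m by linarith)]
  exact ⟨N, hlow, hup, hone, hmid⟩

theorem inv_le_quad {τ t : ℝ} (hτ : τ ≤ 1 / 2) (h1 : 1 - τ ≤ t) (h2 : t ≤ 1 + τ) :
    t⁻¹ ≤ 2 - t + 2 * τ ^ 2 := by
  have ht : 0 < t := by linarith
  have hsq : (t - 1) ^ 2 ≤ τ ^ 2 := sq_le_sq' (by linarith) (by linarith)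
  rw [inv_le_iff_one_le_mul₀' ht]
  have e1 : τ ^ 2 ≤ t * τ ^ 2 * 2 := by
    have := mul_le_mul_of_nonneg_right (show (1 : ℝ) ≤ t * 2 by linarith) (sq_nonneg τ)
    linarith
  linarith

open BTree in
theorem smooth_of_seminorm {X : Type u} [NormedAddCommGroup X] [NormedSpace ℝ X] {q C c : ℝ}
    (hq : 1 < q) (hq2 : q ≤ 2) (hC : 0 < C) (hc : c = 2 * C + 1)
    (h : ∀ T : BTree X, ex (fun z => ‖z‖) T 0 ≤ C * (1 + BTree.cost q T))
    (N : Seminorm ℝ X) (hlow : ∀ z, ‖z‖ ≤ c * N z) (hone : ∀ z, N z = 1 → F q C z = c)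
    (hmid : ∀ m, N m ≤ 1 → F q C m ≤ N m * c + (1 - N m) * C) {ε : ℝ} (hε : 0 < ε) :
    ∃ τ₀ > (0 : ℝ), ∀ τ, 0 < τ → τ ≤ τ₀ → ∀ x y, N x = 1 → N y = 1 →
      (N (x + τ • y) + N (x - τ • y)) / 2 - 1 ≤ ε * τ := by
  have hc0 : 0 < c := by linarith
  set D : ℝ := C * (6 * c) ^ q / (C + 1) + 6 with hD
  have hD0 : 0 < D := by positivity
  refine ⟨min (1 / 2) ((ε / D) ^ (1 / (q - 1))),
    lt_min (by norm_num) (rpow_pos_of_pos (div_pos hε hD0) _), fun τ hτ hτle x y hx hy => ?_⟩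
  have hτ2 : τ ≤ 1 / 2 := hτle.trans (min_le_left _ _)
  have hτq : D * τ ^ q ≤ ε * τ := by
    have h1 : τ ^ (q - 1) ≤ ε / D := by
      have := Real.rpow_le_rpow hτ.le (hτle.trans (min_le_right _ _)) (by linarith : 0 ≤ q - 1)
      rwa [← Real.rpow_mul (div_pos hε hD0).le, one_div, inv_mul_cancel₀ (by linarith),
        Real.rpow_one] at this
    have h2 : τ ^ q = τ ^ (q - 1) * τ := by
      rw [← Real.rpow_add_one hτ.ne']; ring_nf
    rw [h2, ← mul_assoc]
    refine mul_le_mul_of_nonneg_right ?_ hτ.le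
    rw [le_div_iff₀ hD0] at h1; linarith
  have hτy : N (τ • y) = τ := by
    rw [map_smul_eq_mul, hy, Real.norm_eq_abs, abs_of_pos hτ, mul_one]
  set s := N (x + τ • y) with hs
  set s' := N (x - τ • y) with hs'
  have hsu : s ≤ 1 + τ := by
    have := map_add_le_add N x (τ • y); rw [hx, hτy] at this; exact this
  have hsu' : s' ≤ 1 + τ := by
    have := map_sub_le_add N x (τ • y); rw [hx, hτy] at this; exact this
  have hsl : 1 - τ ≤ s := by
    have := map_sub_le_add N (x + τ • y) (τ • y)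
    rw [add_sub_cancel_right, hx, hτy] at this; linarith
  have hsl' : 1 - τ ≤ s' := by
    have := map_add_le_add N (x - τ • y) (τ • y)
    rw [sub_add_cancel, hx, hτy] at this; linarith
  have hs0 : 0 < s := by linarith
  have hs0' : 0 < s' := by linarith
  set u₁ := s⁻¹ • (x + τ • y) with hu1
  set u₂ := s'⁻¹ • (x - τ • y) with hu2
  have hN1 : N u₁ = 1 := by
    rw [map_smul_eq_mul, Real.norm_eq_abs, abs_of_pos (inv_pos.2 hs0)]; exact inv_mul_cancel₀ hs0.ne'
  have hN2 : N u₂ = 1 := by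
    rw [map_smul_eq_mul, Real.norm_eq_abs, abs_of_pos (inv_pos.2 hs0')]
    exact inv_mul_cancel₀ hs0'.ne'
  set m := (1 / 2 : ℝ) • (u₁ + u₂) with hm
  set v := (1 / 2 : ℝ) • (u₁ - u₂) with hv
  have hmv : m + v = u₁ := by rw [hm, hv]; module
  have hmv' : m - v = u₂ := by rw [hm, hv]; module
  have hNm1 : N m ≤ 1 := by
    rw [hm, map_smul_eq_mul, Real.norm_eq_abs, abs_of_pos (by norm_num : (0 : ℝ) < 1 / 2)]
    have := map_add_le_add N u₁ u₂; rw [hN1, hN2] at this; linarith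
  have hi1 : s⁻¹ ≤ 2 := (inv_le_comm₀ hs0 two_pos).2 (by linarith)
  have hi2 : s'⁻¹ ≤ 2 := (inv_le_comm₀ hs0' two_pos).2 (by linarith)
  have hi0 : 0 < s⁻¹ := inv_pos.2 hs0
  have hi0' : 0 < s'⁻¹ := inv_pos.2 hs0'
  have hdiff : |s⁻¹ - s'⁻¹| ≤ 8 * τ := by
    have h1 : s⁻¹ - s'⁻¹ = (s' - s) * (s⁻¹ * s'⁻¹) := by field_simp
    rw [h1, abs_mul, abs_of_pos (mul_pos hi0 hi0')]
    calc |s' - s| * (s⁻¹ * s'⁻¹) ≤ (2 * τ) * (2 * 2) :=
          mul_le_mul (abs_le.2 ⟨by linarith, by linarith⟩) (mul_le_mul hi1 hi2 hi0'.le two_pos.le)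
            (by positivity) (by linarith)
      _ = 8 * τ := by ring
  have hNv : N v ≤ 6 * τ := by
    have h1 : v = ((s⁻¹ - s'⁻¹) / 2) • x + ((s⁻¹ + s'⁻¹) / 2) • (τ • y) := by
      rw [hv, hu1, hu2]; module
    rw [h1]
    refine (map_add_le_add N _ _).trans ?_
    rw [map_smul_eq_mul, map_smul_eq_mul N _ (τ • y), hx, hτy, Real.norm_eq_abs, Real.norm_eq_abs,
      abs_div, abs_two, abs_of_pos (show 0 < (s⁻¹ + s'⁻¹) / 2 by positivity)]
    linarith only [hdiff, mul_le_mul_of_nonneg_right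
      (show (s⁻¹ + s'⁻¹) / 2 ≤ 2 by linarith only [hi1, hi2]) hτ.le]
  have hFm : c ≤ F q C m + C * ‖v‖ ^ q := by
    have := F_graft h m v
    rw [hmv, hmv', hone _ hN1, hone _ hN2] at this
    linarith
  have hvq : C * ‖v‖ ^ q ≤ C * ((6 * c) ^ q * τ ^ q) := by
    refine mul_le_mul_of_nonneg_left ?_ hC.le
    rw [← Real.mul_rpow (by positivity) hτ.le]
    refine Real.rpow_le_rpow (norm_nonneg v) ((hlow v).trans ?_) (by linarith)
    linarith only [mul_le_mul_of_nonneg_left hNv hc0.le]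
  have hη : 1 - N m ≤ C * (6 * c) ^ q / (C + 1) * τ ^ q := by
    have := hmid m hNm1
    rw [div_mul_eq_mul_div, le_div_iff₀ (by linarith : (0 : ℝ) < C + 1)]
    have e1 : (1 - N m) * (C + 1) = c - (N m * c + (1 - N m) * C) := by rw [hc]; ring
    linarith only [e1, this, hFm, hvq]
  have hNm : N m ≤ (s⁻¹ + s'⁻¹) / 2 + 4 * τ ^ 2 := by
    have h1 : m = ((s⁻¹ + s'⁻¹) / 2) • x + ((s⁻¹ - s'⁻¹) / 2) • (τ • y) := by
      rw [hm, hu1, hu2]; module
    rw [h1]
    refine (map_add_le_add N _ _).trans ?_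
    rw [map_smul_eq_mul, map_smul_eq_mul N _ (τ • y), hx, hτy, Real.norm_eq_abs, Real.norm_eq_abs,
      abs_div (s⁻¹ - s'⁻¹), abs_two, abs_of_pos (show 0 < (s⁻¹ + s'⁻¹) / 2 by positivity)]
    linarith only [mul_le_mul_of_nonneg_right hdiff hτ.le]
  have hinv := fun t => inv_le_quad (t := t) hτ2
  have h1 := hinv s hsl hsu
  have h2 := hinv s' hsl' hsu'
  have hτ22 : τ ^ 2 ≤ τ ^ q := by
    rw [← Real.rpow_natCast τ 2]
    exact Real.rpow_le_rpow_of_exponent_ge hτ (by linarith) (by exact_mod_cast hq2)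
  have hDτ : D * τ ^ q = C * (6 * c) ^ q / (C + 1) * τ ^ q + 6 * τ ^ q := by rw [hD]; ring
  clear_value D s s'
  linarith only [h1, h2, hη, hNm, hτ22, hDτ, hτq]

theorem renorm_of_tree_bound {X : Type u} [NormedAddCommGroup X] [NormedSpace ℝ X] {q C : ℝ}
    (hq : 1 < q) (hq2 : q ≤ 2) (hC : 0 < C)
    (h : ∀ T : BTree X, BTree.ex (fun z => ‖z‖) T 0 ≤ C * (1 + BTree.cost q T)) :
    HasUniformlySmoothNorm X := by
  obtain ⟨N, hlow, hup, hone, hmid⟩ := exists_seminorm hC h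
  have hc0 : 0 < 2 * C + 1 := by linarith
  refine ⟨N, 1 / (2 * C + 1), 1 / (C + 1), by positivity, fun x => ?_, fun x => ?_, fun ε hε =>
    smooth_of_seminorm hq hq2 hC rfl h N hlow hone hmid hε⟩
  · rw [div_mul_eq_mul_div, one_mul, div_le_iff₀ hc0]; linarith [hlow x]
  · rw [div_mul_eq_mul_div, one_mul]; exact hup x

/-- Piece A. -/
theorem renormStmt : RenormStmt.{u} := by
  intro X _ _ p n γ hp hn hγ hG
  obtain ⟨e, C₀, he, he1, hC₀, hM⟩ := exists_exponent hp hn hγ hG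
  obtain ⟨q, C, hq, hq2, hC, hT⟩ := BTree.exists_q hp he he1 hC₀ hM
  exact renorm_of_tree_bound hq hq2 hC hT

end Vale.Agent.P125
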