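import Vale.Agent.P125.Defs

/-!
Markov type passes to finite `p`-sums; an almost straight martingale gives a summing system in
the `p`-sum over its paths.
-/

namespace Vale.Agent.P125

open Finset

universe u

theorem piLpMarkovStmt : PiLpMarkovStmt.{u} := by
  intro X _ _ p K _ hp hM Ω _ S _ _ P μ hP hP1 hμ hμ1 hrev f t ht
  have hp0 : 0 < p := by linarith
  have htop : (ENNReal.ofReal p).toReal = p := ENNReal.toReal_ofReal hp0.le
  have hnorm : ∀ g : PiLp (ENNReal.ofReal p) (fun _ : Ω => X),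
      ‖g‖ ^ p = ∑ ω, ‖g ω‖ ^ p := fun g => by
    rw [PiLp.norm_eq_sum (by rw [htop]; exact hp0), htop, one_div,
      Real.rpow_inv_rpow (Finset.sum_nonneg fun ω _ => Real.rpow_nonneg (norm_nonneg _) _) hp0.ne']
  have key : ∀ Q : Matrix S S ℝ,
      ∑ i, ∑ j, μ i * Q i j * ‖f i - f j‖ ^ p
        = ∑ ω, ∑ i, ∑ j, μ i * Q i j * ‖f i ω - f j ω‖ ^ p := fun Q => by
    simp only [hnorm, Finset.mul_sum, WithLp.ofLp_sub, Pi.sub_apply]
    rw [Finset.sum_congr rfl fun i _ => Finset.sum_comm, Finset.sum_comm]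
  rw [key, key, Finset.mul_sum]
  exact Finset.sum_le_sum fun ω _ => hM S P μ hP hP1 hμ hμ1 hrev (fun i => f i ω) t ht

namespace Mart

variable {X : Type u} [NormedAddCommGroup X] [NormedSpace ℝ X]

/-- the paths of a martingale -/
def Path : {n : ℕ} → Mart X n → Type
  | _, .nil => Unit
  | _, .node r _ _ _ _ _ child => Σ i : Fin r, Path (child i)

noncomputable instance pathFintype : {n : ℕ} → (M : Mart X n) → Fintype M.Path
  | _, .nil => inferInstanceAs (Fintype Unit)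
  | _, .node r _ _ _ _ _ child =>
    haveI := fun i => pathFintype (child i)
    inferInstanceAs (Fintype (Σ i : Fin r, Path (child i)))

/-- the probability of a path -/
def weight : {n : ℕ} → (M : Mart X n) → M.Path → ℝ
  | _, .nil => fun _ => 1
  | _, .node _ w _ _ _ _ child => fun ω => w ω.1 * weight (child ω.1) ω.2

/-- the increments along a path -/
def incr : {n : ℕ} → (M : Mart X n) → M.Path → Fin n → X
  | _, .nil => fun _ i => Fin.elim0 i
  | _, .node _ _ d _ _ _ child => fun ω => Fin.cons (d ω.1) (incr (child ω.1) ω.2)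

theorem weight_nonneg : {n : ℕ} → (M : Mart X n) → (ω : M.Path) → 0 ≤ M.weight ω
  | _, .nil, _ => zero_le_one
  | _, .node _ _ _ hw _ _ child, ω => mul_nonneg (hw ω.1) (weight_nonneg (child ω.1) ω.2)

/-- expected power of the norm of a transformed sum -/
noncomputable def mean (p : ℝ) {n : ℕ} (M : Mart X n) (a : Fin n → ℝ) (x : X) : ℝ :=
  ∑ ω, M.weight ω * ‖x + ∑ t, a t • M.incr ω t‖ ^ p

theorem mean_nil (p : ℝ) (a : Fin 0 → ℝ) (x : X) :
    mean p (Mart.nil : Mart X 0) a x = ‖x‖ ^ p := by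
  show ∑ ω : Unit, (1 : ℝ) * ‖x + ∑ t, a t • (Mart.nil : Mart X 0).incr ω t‖ ^ p = _
  simp

theorem mean_node (p : ℝ) {n r : ℕ} (w : Fin r → ℝ) (d : Fin r → X) (hw : ∀ i, 0 ≤ w i)
    (hw1 : ∑ i, w i = 1) (hd : ∑ i, w i • d i = 0) (child : Fin r → Mart X n)
    (a : Fin (n + 1) → ℝ) (x : X) :
    mean p (Mart.node r w d hw hw1 hd child) a x
      = ∑ i, w i * mean p (child i) (fun t => a t.succ) (x + a 0 • d i) := by
  show ∑ ω : Σ i : Fin r, Path (child i), (w ω.1 * (child ω.1).weight ω.2)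
    * ‖x + ∑ t, a t • (Fin.cons (d ω.1) ((child ω.1).incr ω.2) : Fin (n + 1) → X) t‖ ^ p = _
  rw [Fintype.sum_sigma]
  simp only [mean, Finset.mul_sum, Fin.sum_univ_succ, Fin.cons_zero, Fin.cons_succ, mul_assoc,
    add_assoc]

theorem sumPow_eq_mean (p : ℝ) : {n : ℕ} → (M : Mart X n) → (x : X) →
    M.sumPow p x = mean p M (fun _ => 1) x
  | _, .nil, x => by rw [Mart.sumPow, mean_nil]
  | _, .node r w d hw hw1 hd child, x => by
    rw [Mart.sumPow, mean_node]
    exact Finset.sum_congr rfl fun i _ => by rw [sumPow_eq_mean p (child i), one_smul]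

theorem weight_sum : {n : ℕ} → (M : Mart X n) → ∑ ω, M.weight ω = 1
  | _, .nil => by show ∑ _ω : Unit, (1 : ℝ) = 1; simp
  | _, .node r w d hw hw1 hd child => by
    show ∑ ω : Σ i : Fin r, Path (child i), w ω.1 * (child ω.1).weight ω.2 = 1
    simp only [Fintype.sum_sigma, ← Finset.mul_sum, weight_sum, mul_one, hw1]

theorem cost_eq (p : ℝ) : {n : ℕ} → (M : Mart X n) →
    M.cost p = ∑ t, ∑ ω, M.weight ω * ‖M.incr ω t‖ ^ p
  | _, .nil => by rw [Mart.cost]; simp
  | _, .node r w d hw hw1 hd child => by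
    rw [Mart.cost]
    show _ = ∑ t, ∑ ω : Σ i : Fin r, Path (child i), (w ω.1 * (child ω.1).weight ω.2)
      * ‖(Fin.cons (d ω.1) ((child ω.1).incr ω.2) : Fin _ → X) t‖ ^ p
    simp only [Fin.sum_univ_succ, Fin.cons_zero, Fin.cons_succ, Fintype.sum_sigma, mul_assoc,
      ← Finset.mul_sum, ← Finset.sum_mul, weight_sum, one_mul, mul_add, Finset.sum_add_distrib]
    congr 1
    rw [Finset.sum_comm]
    exact Finset.sum_congr rfl fun i _ => by rw [cost_eq p (child i), Finset.mul_sum]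

theorem norm_pow_le {r : ℕ} {p : ℝ} (hp : 1 ≤ p) (w : Fin r → ℝ) (z : Fin r → X)
    (hw : ∀ i, 0 ≤ w i) (hw1 : ∑ i, w i = 1) :
    ‖∑ i, w i • z i‖ ^ p ≤ ∑ i, w i * ‖z i‖ ^ p := by
  refine le_trans (Real.rpow_le_rpow (norm_nonneg _) ((norm_sum_le _ _).trans (le_of_eq ?_))
    (le_trans zero_le_one hp))
    (Real.rpow_arith_mean_le_arith_mean_rpow univ w (fun i => ‖z i‖) (fun i _ => hw i) hw1
      (fun i _ => norm_nonneg _) hp)
  exact Finset.sum_congr rfl fun i _ => by rw [norm_smul, Real.norm_of_nonneg (hw i)]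

theorem norm_le_mean {p : ℝ} (hp : 1 ≤ p) : {n : ℕ} → (M : Mart X n) → (a : Fin n → ℝ) → (x : X) →
    ‖x‖ ^ p ≤ mean p M a x
  | _, .nil, a, x => by rw [mean_nil]
  | _, .node r w d hw hw1 hd child, a, x => by
    rw [mean_node]
    refine le_trans (le_of_eq_of_le ?_ (norm_pow_le hp w (fun i => x + a 0 • d i) hw hw1))
      (Finset.sum_le_sum fun i _ => mul_le_mul_of_nonneg_left (norm_le_mean hp (child i) _ _) (hw i))
    congr 2
    simp only [smul_add, Finset.sum_add_distrib, ← Finset.sum_smul, hw1, one_smul,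
      smul_comm (w _) (a 0), ← Finset.smul_sum, hd, smul_zero, add_zero]

theorem mean_prefix {p : ℝ} (hp : 1 ≤ p) : {n : ℕ} → (M : Mart X n) → (a : Fin n → ℝ) → (m : ℕ) →
    (x : X) → mean p M (fun t => if (t : ℕ) < m then a t else 0) x ≤ mean p M a x
  | _, .nil, a, m, x => by rw [mean_nil, mean_nil]
  | _, .node r w d hw hw1 hd child, a, 0, x => by
    refine le_trans (le_of_eq ?_) (norm_le_mean hp _ a x)
    simp only [mean, Nat.not_lt_zero, if_false, zero_smul, Finset.sum_const_zero, add_zero,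
      ← Finset.sum_mul, weight_sum, one_mul]
  | _, .node r w d hw hw1 hd child, a, m + 1, x => by
    rw [mean_node, mean_node]
    refine Finset.sum_le_sum fun i _ => mul_le_mul_of_nonneg_left ?_ (hw i)
    simp only [Fin.val_succ, Fin.val_zero, Nat.succ_pos, if_true, add_lt_add_iff_right]
    exact mean_prefix hp (child i) (fun t => a t.succ) m _

end Mart

theorem summingStmt : SummingStmt.{u} := by
  intro X _ _ p _ n hp hn hno δ hδ
  classical
  have hp0 : 0 < p := by linarith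
  have hn0 : (0 : ℝ) < n := Nat.cast_pos.mpr (by omega)
  -- the margin
  set ρ : ℝ := (((n : ℝ) - 1) / n) ^ ((p - 1) / p) with hρ
  have hn1 : (1 : ℝ) ≤ (n : ℝ) - 1 := by
    have : (2 : ℝ) ≤ n := by exact_mod_cast hn
    linarith
  have hρ1 : ρ < 1 := by
    refine Real.rpow_lt_one (by positivity) ?_ (div_pos (by linarith) hp0)
    rw [div_lt_one hn0]; linarith
  set κ := (1 - ρ) / 2 with hκ
  have hκ0 : 0 < κ := by rw [hκ]; linarith
  set η := min κ (δ * κ)
  have hη : 0 < η := lt_min hκ0 (mul_pos hδ hκ0)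
  have hγ : (1 + η) ^ (-p) < (1 : ℝ) :=
    Real.rpow_lt_one_of_one_lt_of_neg (by linarith) (by linarith)
  obtain ⟨M, hM⟩ := not_forall.mp (hno _ hγ)
  rw [not_le, M.sumPow_eq_mean] at hM
  refine ⟨M.Path, inferInstance, ?_⟩
  let q : ENNReal := ENNReal.ofReal p
  have htop : q.toReal = p := ENNReal.toReal_ofReal hp0.le
  let y : Fin n → PiLp q (fun _ : M.Path => X) := fun t =>
    WithLp.toLp q fun ω => (M.weight ω) ^ p⁻¹ • M.incr ω t
  have hnorm : ∀ g : PiLp q (fun _ : M.Path => X), ‖g‖ ^ p = ∑ ω, ‖g ω‖ ^ p := fun g => by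
    rw [PiLp.norm_eq_sum (by rw [htop]; exact hp0), htop, one_div,
      Real.rpow_inv_rpow (Finset.sum_nonneg fun ω _ => Real.rpow_nonneg (norm_nonneg _) _) hp0.ne']
  have hsmul : ∀ (ω : M.Path) (z : X),
      ‖(M.weight ω) ^ p⁻¹ • z‖ ^ p = M.weight ω * ‖z‖ ^ p := fun ω z => by
    have h0 := Real.rpow_nonneg (M.weight_nonneg ω) p⁻¹
    rw [norm_smul, Real.norm_of_nonneg h0, Real.mul_rpow h0 (norm_nonneg _),
      Real.rpow_inv_rpow (M.weight_nonneg ω) hp0.ne']
  have hV : ∀ a : Fin n → ℝ, ‖∑ t, a t • y t‖ ^ p = M.mean p a 0 := fun a => by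
    rw [hnorm]
    refine Finset.sum_congr rfl fun ω _ => ?_
    have e : (∑ t, a t • y t) ω = (M.weight ω) ^ p⁻¹ • ∑ t, a t • M.incr ω t := by
      simp [y, WithLp.ofLp_sum, Finset.smul_sum, smul_comm ((M.weight ω) ^ p⁻¹)]
    rw [e, hsmul, zero_add]
  have hcost : ∑ t, ‖y t‖ ^ p = M.cost p := by
    rw [M.cost_eq]
    refine Finset.sum_congr rfl fun t _ => ?_
    rw [hnorm]
    exact Finset.sum_congr rfl fun ω _ => hsmul ω _
  set S := ∑ t, y t
  set σ := ‖S‖
  set C := ∑ t, ‖y t‖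
  have hab : ∀ t, |‖y t‖| = ‖y t‖ := fun t => abs_of_nonneg (norm_nonneg (y t))
  have hσC : σ ≤ C := norm_sum_le _ _
  have hcost0 : 0 ≤ M.cost p := hcost ▸ Finset.sum_nonneg fun t _ =>
    Real.rpow_nonneg (norm_nonneg _) _
  have hσp : (1 + η) ^ (-p) * ((n : ℝ) ^ (p - 1) * M.cost p) < σ ^ p := by
    have := hV fun _ => 1
    simp only [one_smul] at this
    rw [this, ← mul_assoc]
    exact hM
  have hσ : 0 < σ := by
    rcases (norm_nonneg S).eq_or_lt with h | h
    · exfalso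
      rw [show σ = 0 from h.symm, Real.zero_rpow hp0.ne'] at hσp
      have : 0 ≤ (1 + η) ^ (-p) * ((n : ℝ) ^ (p - 1) * M.cost p) := by positivity
      linarith
    · exact h
  have hroot : ((n : ℝ) ^ (p - 1) * M.cost p) ^ p⁻¹ < σ * (1 + η) := by
    rw [Real.rpow_inv_lt_iff_of_pos (by positivity) (by positivity) hp0,
      Real.mul_rpow hσ.le (by positivity)]
    rw [Real.rpow_neg (by positivity), inv_mul_lt_iff₀ (by positivity)] at hσp
    linarith
  have hC : C < σ * (1 + η) := by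
    refine lt_of_le_of_lt ?_ hroot
    rw [Real.le_rpow_inv_iff_of_pos (Finset.sum_nonneg fun t _ => norm_nonneg _)
      (by positivity) hp0, ← hcost]
    have := Real.rpow_sum_le_const_mul_sum_rpow univ (fun t => ‖y t‖) hp.le
    simp only [hab, Finset.card_univ, Fintype.card_fin] at this
    exact this
  have hlow : ∀ t, κ * σ ≤ ‖y t‖ := fun t => by
    by_contra hc
    push Not at hc
    have h1 : (C - ‖y t‖) ^ p ≤ ((n : ℝ) - 1) ^ (p - 1) * M.cost p := by
      have := Real.rpow_sum_le_const_mul_sum_rpow (univ.erase t) (fun t => ‖y t‖) hp.le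
      simp only [hab, Finset.card_erase_of_mem (mem_univ t), Finset.card_univ,
        Fintype.card_fin, Nat.cast_sub (show 1 ≤ n by omega), Nat.cast_one] at this
      rw [Finset.sum_erase_eq_sub (f := fun t => ‖y t‖) (mem_univ t)] at this
      refine this.trans (mul_le_mul_of_nonneg_left ?_ (Real.rpow_nonneg (by linarith) _))
      rw [← hcost]
      exact Finset.sum_le_sum_of_subset_of_nonneg (Finset.erase_subset _ _)
        fun _ _ _ => Real.rpow_nonneg (norm_nonneg _) _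
    have h0 : 0 ≤ C - ‖y t‖ :=
      sub_nonneg.mpr (Finset.single_le_sum (fun t _ => norm_nonneg (y t)) (mem_univ t))
    have h2 : C - ‖y t‖ ≤ ρ * ((n : ℝ) ^ (p - 1) * M.cost p) ^ p⁻¹ := by
      rw [hρ, div_eq_mul_inv (p - 1), Real.rpow_mul (by positivity),
        ← Real.mul_rpow (by positivity) (by positivity),
        Real.le_rpow_inv_iff_of_pos h0 (by positivity) hp0,
        Real.div_rpow (by linarith) hn0.le, ← mul_assoc,
        div_mul_cancel₀ _ (Real.rpow_pos_of_pos hn0 _).ne']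
      exact h1
    have h3 : ρ * ((n : ℝ) ^ (p - 1) * M.cost p) ^ p⁻¹ ≤ ρ * (σ * (1 + η)) :=
      mul_le_mul_of_nonneg_left hroot.le (Real.rpow_nonneg (by positivity) _)
    have h4 : ρ * η ≤ κ :=
      le_trans (mul_le_of_le_one_left hη.le hρ1.le) (min_le_left _ _)
    nlinarith
  have hy0 : ∀ t, 0 < ‖y t‖ := fun t => lt_of_lt_of_le (mul_pos hκ0 hσ) (hlow t)
  obtain ⟨φ, hφ1, hφ⟩ := exists_dual_vector'' ℝ S
  have hdef : ∀ t, ‖y t‖ - φ (y t) ≤ δ * ‖y t‖ := fun t => by
    have h1 : ∑ s, (‖y s‖ - φ (y s)) = C - σ := by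
      rw [Finset.sum_sub_distrib, ← map_sum, hφ]; rfl
    have h2 : ∀ s, 0 ≤ ‖y s‖ - φ (y s) := fun s => sub_nonneg.mpr
      ((le_abs_self _).trans ((φ.le_opNorm _).trans (mul_le_of_le_one_left (norm_nonneg _) hφ1)))
    have h3 : ‖y t‖ - φ (y t) ≤ C - σ := h1 ▸ Finset.single_le_sum (fun s _ => h2 s) (mem_univ t)
    have h4 : η ≤ δ * κ := min_le_right _ _
    have h5 := mul_le_mul_of_nonneg_left (hlow t) hδ.le
    have h6 := mul_le_mul_of_nonneg_left h4 hσ.le
    linarith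
  refine ⟨fun t => ‖y t‖⁻¹ • y t, fun t => le_of_eq (norm_smul_inv_norm (𝕜 := ℝ) (norm_pos_iff.mp (hy0 t))),
    fun a m => ?_⟩
  set b : Fin n → ℝ := fun t => if (t : ℕ) < m then a t * ‖y t‖⁻¹ else 0
  have hb : ‖∑ t, b t • y t‖ ≤ ‖∑ t, a t • ‖y t‖⁻¹ • y t‖ := by
    simp only [smul_smul]
    rw [← Real.rpow_le_rpow_iff (norm_nonneg _) (norm_nonneg _) hp0, hV, hV]
    exact M.mean_prefix hp.le _ m 0
  refine le_trans ?_ hb
  refine le_trans ?_ ((φ.le_opNorm _).trans (mul_le_of_le_one_left (norm_nonneg _) hφ1))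
  set Pm := ∑ t ∈ univ.filter (fun i : Fin n => (i : ℕ) < m), a t
  have hφb : |φ (∑ t, b t • y t) - Pm| ≤ δ * ∑ t, |a t| := by
    simp only [Pm, map_sum, map_smul, smul_eq_mul, Finset.sum_filter, ← Finset.sum_sub_distrib]
    rw [Finset.mul_sum]
    refine (Finset.abs_sum_le_sum_abs _ _).trans (Finset.sum_le_sum fun t _ => ?_)
    simp only [b]
    split_ifs
    · rw [show a t * ‖y t‖⁻¹ * φ (y t) - a t = a t * ((φ (y t) - ‖y t‖) * ‖y t‖⁻¹) by
        field_simp [(hy0 t).ne'], abs_mul, mul_comm δ]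
      refine mul_le_mul_of_nonneg_left ?_ (abs_nonneg _)
      rw [abs_mul, abs_inv, abs_norm, mul_inv_le_iff₀ (hy0 t), abs_sub_comm, abs_of_nonneg]
      · exact hdef t
      · exact sub_nonneg.mpr ((le_abs_self _).trans
          ((φ.le_opNorm _).trans (mul_le_of_le_one_left (norm_nonneg _) hφ1)))
    · simp [mul_nonneg hδ.le (abs_nonneg (a t))]
  rw [one_mul, Real.norm_eq_abs]
  have := abs_sub_abs_le_abs_sub Pm (φ (∑ t, b t • y t))
  rw [abs_sub_comm] at this
  linarith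

end Vale.Agent.P125
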