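import Vale.Agent.P125.Defs

/-!
Markov type applied to the lift of a graph walk to a box of edge counters bounds signed sums
along non-backtracking paths.
-/

namespace Vale.Agent.P125

open Finset

universe u

namespace Walk

set_option linter.unusedSectionVars false

variable {A B E : Type} [DecidableEq A] [DecidableEq B] [DecidableEq E]
  [Fintype A] [Fintype B] [Fintype E] (a : E → A) (b : E → B)

/-- the vertex where a directed edge starts -/
def src (h : E × Bool) : A ⊕ B := if h.2 then Sum.inl (a h.1) else Sum.inr (b h.1)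

/-- reversal of a directed edge -/
def back (h : E × Bool) : E × Bool := (h.1, !h.2)

/-- the vertex where a directed edge ends -/
def dst (h : E × Bool) : A ⊕ B := src a b (back h)

theorem back_back (h : E × Bool) : back (back h) = h := by simp [back]

theorem back_invol : Function.Involutive (back : E × Bool → E × Bool) := back_back

theorem dst_back (h : E × Bool) : dst a b (back h) = src a b h := by rw [dst, back_back]

/-- the directed edges leaving a vertex -/
noncomputable def star (v : A ⊕ B) : Finset (E × Bool) :=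
  univ.filter fun h => src a b h = v

theorem mem_star {v : A ⊕ B} {h : E × Bool} : h ∈ star a b v ↔ src a b h = v := by
  simp [star]

theorem back_mem_star (h : E × Bool) : back h ∈ star a b (dst a b h) := (mem_star a b).mpr rfl

theorem star_dst_pos (h : E × Bool) : 0 < (star a b (dst a b h)).card :=
  Finset.card_pos.mpr ⟨_, back_mem_star a b h⟩

theorem sum_star (F : E × Bool → ℝ) : ∑ v, ∑ h ∈ star a b v, F h = ∑ h, F h := by
  rw [← Finset.sum_fiberwise univ (src a b) F]
  refine Finset.sum_congr rfl fun v _ => Finset.sum_congr ?_ fun _ _ => rfl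
  ext h
  simp [star]

variable {Y : Type u} [NormedAddCommGroup Y] [NormedSpace ℝ Y] (w : E → Y) (p : ℝ)

/-- sign of a directed edge -/
def sg (h : E × Bool) : ℝ := if h.2 then 1 else -1

/-- signed increment of a directed edge -/
def inc (h : E × Bool) : Y := sg h • w h.1

/-- expected power of the norm after `t` steps of the graph walk from `v` -/
noncomputable def val : ℕ → A ⊕ B → Y → ℝ
  | 0, _, z => ‖z‖ ^ p
  | t + 1, v, z =>
    ((star a b v).card : ℝ)⁻¹ * ∑ h ∈ star a b v, val t (dst a b h) (z + inc w h)

theorem val_nonneg (t : ℕ) (v : A ⊕ B) (z : Y) : 0 ≤ val a b w p t v z := by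
  induction t generalizing v z with
  | zero => exact Real.rpow_nonneg (norm_nonneg _) _
  | succ t ih => exact mul_nonneg (by positivity) (Finset.sum_nonneg fun h _ => ih _ _)

/-- probability that the next `t` steps after `h` do not backtrack -/
noncomputable def nb : ℕ → E × Bool → ℝ
  | 0, _ => 1
  | t + 1, h =>
    ((star a b (dst a b h)).card : ℝ)⁻¹ *
      ∑ g ∈ (star a b (dst a b h)).erase (back h), nb t g

theorem nb_nonneg_le (t : ℕ) (h : E × Bool) : 0 ≤ nb a b t h ∧ nb a b t h ≤ 1 := by
  induction t generalizing h with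
  | zero => simp [nb]
  | succ t ih =>
    refine ⟨mul_nonneg (by positivity) (Finset.sum_nonneg fun g _ => (ih g).1), ?_⟩
    have hc : (0 : ℝ) < (star a b (dst a b h)).card := Nat.cast_pos.mpr (star_dst_pos a b h)
    rw [nb, inv_mul_le_iff₀ hc, mul_one]
    refine (Finset.sum_le_card_nsmul _ _ 1 fun g _ => (ih g).2).trans ?_
    rw [nsmul_one]
    exact_mod_cast Finset.card_le_card (Finset.erase_subset _ _)

theorem sum_nb (t : ℕ) :
    2 * (Fintype.card E : ℝ) - (t : ℝ) * ((Fintype.card A : ℝ) + Fintype.card B)
      ≤ ∑ h, nb a b t h := by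
  induction t with
  | zero => simp [nb, Fintype.card_prod, mul_comm]
  | succ t ih =>
    set r : E × Bool → ℝ := fun g => ((star a b (src a b g)).card : ℝ)⁻¹
    have e : ∑ h, nb a b (t + 1) h = ∑ g, (nb a b t g - r g * nb a b t g) := by
      rw [← sum_star a b (fun h => nb a b t h - r h * nb a b t h)]
      rw [← Equiv.sum_comp (Function.Involutive.toPerm back back_invol) (fun h => nb a b (t + 1) h),
        ← sum_star a b (fun h => nb a b (t + 1) (Function.Involutive.toPerm back back_invol h))]
      refine Finset.sum_congr rfl fun v _ => ?_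
      have hterm : ∀ h ∈ star a b v, nb a b (t + 1) (Function.Involutive.toPerm back back_invol h)
          = ((star a b v).card : ℝ)⁻¹ * (∑ g ∈ star a b v, nb a b t g - nb a b t h) := fun h hh => by
        rw [Function.Involutive.coe_toPerm, nb, dst_back, (mem_star a b).mp hh, back_back,
          Finset.sum_erase_eq_sub hh]
      rw [Finset.sum_congr rfl hterm, ← Finset.mul_sum, Finset.sum_sub_distrib, Finset.sum_const,
        nsmul_eq_mul, mul_sub]
      rcases (star a b v).eq_empty_or_nonempty with h0 | h0
      · simp [h0]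
      · rw [inv_mul_cancel_left₀ (Nat.cast_ne_zero.mpr h0.card_pos.ne'), Finset.mul_sum,
          ← Finset.sum_sub_distrib]
        refine Finset.sum_congr rfl fun g hg => ?_
        simp only [r, (mem_star a b).mp hg]
    have h2 : ∑ g, r g * nb a b t g ≤ (Fintype.card A : ℝ) + Fintype.card B := by
      rw [← sum_star a b]
      have : ∀ v : A ⊕ B, ∑ h ∈ star a b v, r h * nb a b t h ≤ 1 := fun v => by
        refine (Finset.sum_le_sum (g := fun _ => ((star a b v).card : ℝ)⁻¹) fun h hh => ?_).trans ?_
        · simp only [r, (mem_star a b).mp hh]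
          exact mul_le_of_le_one_right (by positivity) (nb_nonneg_le a b t h).2
        · rw [Finset.sum_const, nsmul_eq_mul]
          exact mul_inv_le_one
      refine (Finset.sum_le_card_nsmul _ _ 1 fun v _ => this v).trans ?_
      simp [Fintype.card_sum]
    rw [e, Finset.sum_sub_distrib]
    push_cast
    linarith

theorem val_ge_nb {c : ℝ} (hc : 0 ≤ c) (hp : 0 ≤ p) (t : ℕ) (h : E × Bool) (z : Y)
    (hok : ∀ (e : ℕ → E) (side : ℕ → Bool), e 0 = h.1 → side 0 = !h.2 →
      (∀ r, side (r + 1) = !side r) →
      (∀ r, r + 1 < t + 1 → e r ≠ e (r + 1) ∧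
        (if side r then a (e r) = a (e (r + 1)) else b (e r) = b (e (r + 1)))) →
      c ≤ ‖z + sg h • ∑ r ∈ range (t + 1), (-1 : ℝ) ^ r • w (e r)‖) :
    c ^ p * nb a b t h ≤ val a b w p t (dst a b h) (z + inc w h) := by
  induction t generalizing h z with
  | zero =>
    have h0 := hok (fun _ => h.1) (fun r => if r % 2 = 0 then !h.2 else h.2) rfl (by simp)
      (fun r => by rcases Nat.mod_two_eq_zero_or_one r with e | e <;> simp [Nat.add_mod, e])
      (fun r hr => absurd hr (by omega))
    simp only [nb, mul_one, val]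
    refine Real.rpow_le_rpow hc ?_ hp
    simpa [inc] using h0
  | succ t ih =>
    rw [nb, val, mul_left_comm, Finset.mul_sum]
    refine mul_le_mul_of_nonneg_left ?_ (by positivity)
    refine le_trans ?_ (Finset.sum_le_sum_of_subset_of_nonneg (Finset.erase_subset (back h) _)
      fun g _ _ => val_nonneg a b w p _ _ _)
    refine Finset.sum_le_sum fun g hg => ih g (z + inc w h) fun e side he hs halt hnb => ?_
    obtain ⟨hne, hg'⟩ := Finset.mem_erase.mp hg
    have hg2 : src a b g = src a b (back h) := (mem_star a b).mp hg'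
    have hbool : g.2 = !h.2 := by
      rcases hh : h.2 <;> rcases hgg : g.2 <;> simp [src, back, hh, hgg] at hg2 ⊢
    have h0 := hok (fun r => if r = 0 then h.1 else e (r - 1))
      (fun r => if r = 0 then !h.2 else side (r - 1)) rfl rfl
      (fun r => by
        rcases r with _ | r
        · simp [hs, hbool]
        · simpa using halt r)
      (fun r hr => by
        rcases r with _ | r
        · refine ⟨fun hE => hne ?_, ?_⟩
          · simp [he] at hE
            exact Prod.ext hE.symm hbool
          · rcases hh : h.2 <;> simp [src, back, hh, hbool, he] at hg2 ⊢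
            all_goals exact hg2.symm
        · simpa using hnb r (by omega))
    refine h0.trans (le_of_eq ?_)
    congr 1
    rw [Finset.sum_range_succ' _ (t + 1), smul_add, inc]
    simp only [Nat.succ_ne_zero, if_false, Nat.add_sub_cancel, if_true, pow_zero, one_smul,
      pow_succ, mul_neg, mul_one, neg_smul, Finset.sum_neg_distrib, smul_neg]
    have hsg : sg g = -sg h := by rcases hh : h.2 <;> simp [sg, hbool, hh]
    rw [hsg, neg_smul]
    abel

/-- states of the lifted chain -/
abbrev State (A B E : Type) (L : ℕ) : Type := (A ⊕ B) × (E → Fin L)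

/-- one step of the lifted chain along a directed edge -/
noncomputable def mv {L : ℕ} (h : E × Bool) (i : State A B E L) : State A B E L :=
  if h.2 then
    if hb : (i.2 h.1 : ℕ) + 1 < L then (dst a b h, Function.update i.2 h.1 ⟨i.2 h.1 + 1, hb⟩)
    else i
  else
    if 0 < (i.2 h.1 : ℕ) then
      (dst a b h, Function.update i.2 h.1 ⟨i.2 h.1 - 1, lt_of_le_of_lt (Nat.sub_le _ _) (i.2 h.1).2⟩)
    else i

theorem mv_back {L : ℕ} {h : E × Bool} {i : State A B E L} (hi : src a b h = i.1)
    (hne : mv a b h i ≠ i) :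
    src a b (back h) = (mv a b h i).1 ∧ mv a b (back h) (mv a b h i) = i := by
  obtain ⟨e, s⟩ := h
  obtain ⟨v, y⟩ := i
  cases s
  · by_cases hb : 0 < (y e : ℕ)
    · simp only [mv, back, Bool.false_eq_true, if_false, if_pos hb, Bool.not_false, if_true,
        Function.update_self]
      refine ⟨rfl, ?_⟩
      have h2 : (y e : ℕ) - 1 + 1 < L := by have := (y e).2; omega
      have hd : dst a b (e, true) = v := (dst_back a b (e, false)).trans hi
      rw [dif_pos h2, hd, Function.update_idem]
      refine Prod.ext rfl (Function.update_eq_self_iff.mpr (Fin.ext ?_))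
      simp; omega
    · exact absurd (by simp [mv, hb]) hne
  · by_cases hb : (y e : ℕ) + 1 < L
    · simp only [mv, back, if_true, dif_pos hb, Bool.not_true, Bool.false_eq_true, if_false,
        Function.update_self]
      refine ⟨rfl, ?_⟩
      have hd : dst a b (e, false) = v := (dst_back a b (e, true)).trans hi
      rw [if_pos (Nat.succ_pos _), hd, Function.update_idem]
      exact Prod.ext rfl (Function.update_eq_self_iff.mpr (Fin.ext (by simp)))
    · exact absurd (by simp [mv, hb]) hne

/-- the transition matrix of the lifted chain -/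
noncomputable def tm {L : ℕ} : Matrix (State A B E L) (State A B E L) ℝ :=
  fun i j =>
    if (star a b i.1).card = 0 then (if i = j then 1 else 0)
    else ((star a b i.1).card : ℝ)⁻¹ * ((star a b i.1).filter fun h => mv a b h i = j).card

theorem tm_nonneg {L : ℕ} (i j : State A B E L) : 0 ≤ tm a b i j := by
  unfold tm
  split_ifs <;> positivity

theorem tm_sum {L : ℕ} (i : State A B E L) (g : State A B E L → ℝ) (hi : (star a b i.1).card ≠ 0) :
    ∑ j, tm a b i j * g j
      = ((star a b i.1).card : ℝ)⁻¹ * ∑ h ∈ star a b i.1, g (mv a b h i) := by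
  simp only [tm, if_neg hi, mul_assoc, ← Finset.mul_sum]
  congr 1
  rw [← Finset.sum_fiberwise (star a b i.1) (fun h => mv a b h i) fun h => g (mv a b h i)]
  refine Finset.sum_congr rfl fun j _ => ?_
  rw [Finset.sum_congr rfl fun h hh => by rw [(Finset.mem_filter.mp hh).2], Finset.sum_const,
    nsmul_eq_mul]

theorem tm_row {L : ℕ} (i : State A B E L) : ∑ j, tm a b i j = 1 := by
  by_cases hi : (star a b i.1).card = 0
  · simp [tm, hi]
  · have := tm_sum a b i (fun _ => 1) hi
    simp only [mul_one, Finset.sum_const, nsmul_one] at this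
    rw [this, inv_mul_cancel₀ (Nat.cast_ne_zero.mpr hi)]

theorem tm_symm {L : ℕ} (i j : State A B E L) :
    ((star a b i.1).card : ℝ) * tm a b i j = ((star a b j.1).card : ℝ) * tm a b j i := by
  rcases eq_or_ne i j with rfl | hne
  · rfl
  have hcount : ((star a b i.1).filter fun h => mv a b h i = j).card
      = ((star a b j.1).filter fun h => mv a b h j = i).card := by
    refine Finset.card_bij' (fun h _ => back h) (fun h _ => back h) ?_ ?_
      (fun h _ => back_back h) (fun h _ => back_back h)
    · intro h hh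
      obtain ⟨hs, hm⟩ := Finset.mem_filter.mp hh
      have := mv_back a b ((mem_star a b).mp hs) (by rw [hm]; exact hne.symm)
      rw [hm] at this
      exact Finset.mem_filter.mpr ⟨(mem_star a b).mpr this.1, this.2⟩
    · intro h hh
      obtain ⟨hs, hm⟩ := Finset.mem_filter.mp hh
      have := mv_back a b ((mem_star a b).mp hs) (by rw [hm]; exact hne)
      rw [hm] at this
      exact Finset.mem_filter.mpr ⟨(mem_star a b).mpr this.1, this.2⟩
  have key : ∀ i j : State A B E L, i ≠ j → ((star a b i.1).card : ℝ) * tm a b i j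
      = ((star a b i.1).filter fun h => mv a b h i = j).card := fun i j hij => by
    by_cases hi : (star a b i.1).card = 0
    · simp [Finset.card_eq_zero.mp hi]
    · simp only [tm, if_neg hi]
      rw [mul_inv_cancel_left₀ (Nat.cast_ne_zero.mpr hi)]
  rw [key i j hne, key j i hne.symm, hcount]

/-- the potential of a state -/
noncomputable def pot {L : ℕ} (i : State A B E L) : Y := ∑ e, (i.2 e : ℕ) • w e

theorem pot_update {L : ℕ} (v : A ⊕ B) (y : E → Fin L) (e₀ : E) (x : Fin L) :
    pot w ((v, Function.update y e₀ x) : State A B E L)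
      = ∑ e ∈ univ.erase e₀, (y e : ℕ) • w e + ((x : ℕ) : ℝ) • w e₀ := by
  rw [pot, ← Finset.sum_erase_add _ _ (mem_univ e₀)]
  dsimp only
  have hsame : ∀ e ∈ univ.erase e₀, (Function.update y e₀ x e : ℕ) • w e = (y e : ℕ) • w e :=
    fun e he => by rw [Function.update_of_ne (Finset.mem_erase.mp he).1]
  rw [Finset.sum_congr rfl hsame, Function.update_self, Nat.cast_smul_eq_nsmul]

theorem pot_split {L : ℕ} (v : A ⊕ B) (y : E → Fin L) (e₀ : E) :
    pot w ((v, y) : State A B E L)
      = ∑ e ∈ univ.erase e₀, (y e : ℕ) • w e + ((y e₀ : ℕ) : ℝ) • w e₀ := by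
  conv_lhs => rw [← Function.update_eq_self e₀ y]
  rw [pot_update]

theorem pot_mv {L : ℕ} (h : E × Bool) (i : State A B E L)
    (hlo : 0 < (i.2 h.1 : ℕ)) (hhi : (i.2 h.1 : ℕ) + 1 < L) :
    (mv a b h i).1 = dst a b h ∧ pot w (mv a b h i) = pot w i + inc w h ∧
      ∀ e, (i.2 e : ℕ) ≤ ((mv a b h i).2 e : ℕ) + 1 ∧ ((mv a b h i).2 e : ℕ) ≤ (i.2 e : ℕ) + 1 := by
  obtain ⟨e₀, s⟩ := h
  have hupd : ∀ x : Fin L, pot w ((dst a b (e₀, s), Function.update i.2 e₀ x) : State A B E L)
      = pot w i + ((x : ℕ) : ℝ) • w e₀ - ((i.2 e₀ : ℕ) : ℝ) • w e₀ := fun x => by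
    rw [pot_update, show pot w i = _ from pot_split w i.1 i.2 e₀]
    abel
  cases s
  · simp only [mv, Bool.false_eq_true, if_false, if_pos hlo]
    refine ⟨trivial, ?_, fun e => ?_⟩
    · rw [hupd, inc, sg, if_neg (by simp), Nat.cast_sub hlo, Nat.cast_one, sub_smul, one_smul,
        neg_one_smul]
      abel
    · rcases eq_or_ne e e₀ with rfl | he
      · simp; omega
      · simp [he]
  · simp only [mv, if_true, dif_pos hhi]
    refine ⟨trivial, ?_, fun e => ?_⟩
    · rw [hupd, inc, sg, if_pos rfl, Nat.cast_add, Nat.cast_one, add_smul, one_smul]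
      abel
    · rcases eq_or_ne e e₀ with rfl | he
      · simp; omega
      · simp [he]

theorem pow_val {L : ℕ} (t : ℕ) (i : State A B E L) (z : Y) (hi : 0 < (star a b i.1).card)
    (hm : ∀ e, t ≤ (i.2 e : ℕ) ∧ (i.2 e : ℕ) + t < L) :
    ∑ j, ((tm a b) ^ t) i j * ‖z - pot w j‖ ^ p = val a b w p t i.1 (pot w i - z) := by
  induction t generalizing i with
  | zero => simp [Matrix.one_apply, val, norm_sub_rev]
  | succ t ih =>
    calc ∑ j, ((tm a b) ^ (t + 1)) i j * ‖z - pot w j‖ ^ p
        = ∑ m, tm a b i m * ∑ j, ((tm a b) ^ t) m j * ‖z - pot w j‖ ^ p := by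
          simp only [pow_succ', Matrix.mul_apply, Finset.sum_mul, Finset.mul_sum, mul_assoc]
          rw [Finset.sum_comm]
      _ = _ := by
          rw [tm_sum a b i _ hi.ne', val]
          refine congrArg _ (Finset.sum_congr rfl fun h _ => ?_)
          obtain ⟨h1, h2, h3⟩ := pot_mv a b w h i
            (by have := (hm h.1).1; omega) (by have := (hm h.1).2; omega)
          rw [ih _ (by rw [h1]; exact star_dst_pos a b h)
            (fun e => ⟨by have := (h3 e).1; have := (hm e).1; omega,
              by have := (h3 e).2; have := (hm e).2; omega⟩), h1, h2]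
          congr 1
          abel

theorem box_bound (K : ℝ) (hK : 0 ≤ K) (hp : 0 < p) (hM : MarkovTypeWith Y p K) (k L : ℕ)
    (hk : 1 ≤ k) (hL : 2 * k < L) (hE : 0 < Fintype.card E) :
    (((L - 2 * k : ℕ) : ℝ) / L) ^ Fintype.card E *
        ∑ v, ((star a b v).card : ℝ) * val a b w p k v 0
      ≤ K ^ p * k * (2 * ∑ e, ‖w e‖ ^ p) := by
  have hLpos : (0 : ℝ) < L := Nat.cast_pos.mpr (by omega)
  set N : ℝ := (L : ℝ) ^ Fintype.card E * (2 * Fintype.card E) with hN
  have hN0 : 0 < N := mul_pos (pow_pos hLpos _) (mul_pos two_pos (Nat.cast_pos.mpr hE))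
  set μ : State A B E L → ℝ := fun i => (star a b i.1).card / N
  have hμ0 : ∀ i, 0 ≤ μ i := fun i => div_nonneg (Nat.cast_nonneg _) hN0.le
  have htot : ∑ i, μ i = 1 := by
    rw [← Finset.sum_div, div_eq_one_iff_eq hN0.ne', Fintype.sum_prod_type]
    simp only [Finset.sum_const, Finset.card_univ, Fintype.card_fun, Fintype.card_fin, nsmul_eq_mul,
      ← Finset.mul_sum]
    have := sum_star a b fun _ => (1 : ℝ)
    simp only [Finset.sum_const, nsmul_one, Finset.card_univ, Fintype.card_prod,
      Fintype.card_bool] at this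
    rw [this, hN]
    push_cast
    ring
  have hmain := hM (State A B E L) (tm a b) μ (tm_nonneg a b) (tm_row a b) hμ0 htot
    (fun i j => by simp only [μ]; rw [div_mul_eq_mul_div, div_mul_eq_mul_div, tm_symm a b i j])
    (pot w) k hk
  have hright : ∑ i, ∑ j, μ i * tm a b i j * ‖pot w i - pot w j‖ ^ p
      ≤ (L : ℝ) ^ Fintype.card E * (2 * ∑ e, ‖w e‖ ^ p) / N := by
    have hrow : ∀ i : State A B E L, ∑ j, μ i * tm a b i j * ‖pot w i - pot w j‖ ^ p
        ≤ (∑ h ∈ star a b i.1, ‖w h.1‖ ^ p) / N := fun i => by
      simp only [mul_assoc, ← Finset.mul_sum]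
      by_cases hi : (star a b i.1).card = 0
      · simp [μ, Finset.card_eq_zero.mp hi]
      · rw [tm_sum a b i _ hi, div_mul_eq_mul_div,
          mul_inv_cancel_left₀ (Nat.cast_ne_zero.mpr hi)]
        refine div_le_div_of_nonneg_right (Finset.sum_le_sum fun h _ => ?_) hN0.le
        refine Real.rpow_le_rpow (norm_nonneg _) ?_ hp.le
        by_cases hne : mv a b h i = i
        · simp [hne]
        · obtain ⟨e₀, s⟩ := h
          obtain ⟨v, y⟩ := i
          refine le_of_eq ?_
          have hupd : ∀ (x : Fin L) (v' : A ⊕ B),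
              pot w ((v, y) : State A B E L)
                - pot w ((v', Function.update y e₀ x) : State A B E L)
              = ((y e₀ : ℕ) : ℝ) • w e₀ - ((x : ℕ) : ℝ) • w e₀ := fun x v' => by
            rw [pot_update, pot_split w v y e₀]
            abel
          cases s
          · by_cases hb : 0 < (y e₀ : ℕ)
            · simp only [mv, Bool.false_eq_true, if_false, if_pos hb]
              rw [hupd, Nat.cast_sub hb, Nat.cast_one, sub_smul, one_smul, sub_sub_cancel]
            · exact absurd (by simp [mv, hb]) hne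
          · by_cases hb : (y e₀ : ℕ) + 1 < L
            · simp only [mv, if_true, dif_pos hb]
              rw [hupd, Nat.cast_add, Nat.cast_one, add_smul, one_smul, sub_add_cancel_left,
                norm_neg]
            · exact absurd (by simp [mv, hb]) hne
    refine (Finset.sum_le_sum fun i _ => hrow i).trans (le_of_eq ?_)
    rw [← Finset.sum_div, Fintype.sum_prod_type]
    simp only [Finset.sum_const, Finset.card_univ, Fintype.card_fun, Fintype.card_fin, nsmul_eq_mul,
      ← Finset.mul_sum]
    rw [sum_star a b fun h => ‖w h.1‖ ^ p, Fintype.sum_prod_type]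
    simp [Finset.mul_sum]
  set G : Finset (E → Fin L) := Fintype.piFinset fun _ =>
    univ.filter fun x : Fin L => k ≤ (x : ℕ) ∧ (x : ℕ) + k < L
  have hleft : (G.card : ℝ) * (∑ v, ((star a b v).card : ℝ) * val a b w p k v 0) / N
      ≤ ∑ i, ∑ j, μ i * ((tm a b) ^ k) i j * ‖pot w i - pot w j‖ ^ p := by
    have hpow : ∀ (t : ℕ) (i j : State A B E L), 0 ≤ ((tm a b) ^ t) i j := fun t => by
      induction t with
      | zero => intro i j; simp [Matrix.one_apply]; split_ifs <;> norm_num
      | succ t ih =>
        intro i j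
        rw [pow_succ, Matrix.mul_apply]
        exact Finset.sum_nonneg fun m _ => mul_nonneg (ih i m) (tm_nonneg a b m j)
    refine le_trans (le_of_eq ?_) (Finset.sum_le_sum_of_subset_of_nonneg
      (Finset.subset_univ ((univ : Finset (A ⊕ B)) ×ˢ G)) fun i _ _ => Finset.sum_nonneg fun j _ =>
        mul_nonneg (mul_nonneg (hμ0 i) (hpow k i j)) (Real.rpow_nonneg (norm_nonneg _) _))
    rw [Finset.sum_product, Finset.mul_sum, Finset.sum_div]
    refine Finset.sum_congr rfl fun v _ => ?_
    rw [Finset.sum_congr rfl (g := fun _ => ((star a b v).card : ℝ) / N * val a b w p k v 0)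
      fun y hy => ?_, Finset.sum_const, nsmul_eq_mul]
    · ring
    · simp only [mul_assoc, ← Finset.mul_sum, μ]
      rcases Nat.eq_zero_or_pos (star a b v).card with h0 | h0
      · simp [h0]
      · rw [pow_val a b w p k (v, y) _ h0 fun e =>
          (Finset.mem_filter.mp (Fintype.mem_piFinset.mp hy e)).2, sub_self]
  have hG : G.card = (L - 2 * k) ^ Fintype.card E := by
    rw [show G.card = _ from Fintype.card_piFinset _, Finset.prod_const, Finset.card_univ]
    congr 1
    rw [← Finset.card_map Fin.valEmbedding,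
      show (univ.filter fun x : Fin L => k ≤ (x : ℕ) ∧ (x : ℕ) + k < L).map Fin.valEmbedding
        = Finset.Ico k (L - k) by
      ext n
      simp only [Finset.mem_map, Finset.mem_filter, Finset.mem_univ, true_and,
        Fin.valEmbedding_apply, Finset.mem_Ico]
      exact ⟨fun ⟨x, hx, e⟩ => by omega, fun hn => ⟨⟨n, by omega⟩, by simp; omega, rfl⟩⟩,
      Nat.card_Ico]
    omega
  have h3 := (hleft.trans hmain).trans (mul_le_mul_of_nonneg_left hright
    (mul_nonneg (Real.rpow_nonneg hK p) (Nat.cast_nonneg k)))
  rw [← mul_div_assoc, div_le_div_iff_of_pos_right hN0, hG] at h3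
  rw [div_pow, div_mul_eq_mul_div, div_le_iff₀ (pow_pos hLpos _)]
  push_cast at h3
  linarith

end Walk


theorem walkStmt : WalkStmt.{u} := by
  intro Y _ _ p K hp hK hM A B E _ _ _ a b w k c hk hc hpath
  classical
  have hp0 : 0 < p := by linarith
  have hrhs : 0 ≤ K ^ p * (k : ℝ) * (2 * ∑ e, ‖w e‖ ^ p) := mul_nonneg (by positivity)
    (mul_nonneg two_pos.le (Finset.sum_nonneg fun e _ => Real.rpow_nonneg (norm_nonneg _) _))
  rcases Nat.eq_zero_or_pos (Fintype.card E) with hE | hE
  · refine le_trans (mul_nonpos_of_nonpos_of_nonneg ?_ (Real.rpow_nonneg hc p)) hrhs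
    rw [hE]
    simp only [Nat.cast_zero, mul_zero, zero_sub, neg_nonpos]
    positivity
  set D := ∑ v, ((Walk.star a b v).card : ℝ) * Walk.val a b w p k v 0
  have hbound : D ≤ K ^ p * (k : ℝ) * (2 * ∑ e, ‖w e‖ ^ p) := by
    have hlim : Filter.Tendsto
        (fun L : ℕ => (((L - 2 * k : ℕ) : ℝ) / L) ^ Fintype.card E * D)
        Filter.atTop (nhds D) := by
      have h1 : Filter.Tendsto (fun L : ℕ => ((L - 2 * k : ℕ) : ℝ) / L) Filter.atTop (nhds 1) := by
        have h2 : Filter.Tendsto (fun L : ℕ => 1 - ((2 * k : ℕ) : ℝ) / L) Filter.atTop (nhds 1) := by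
          simpa using tendsto_const_nhds.sub (tendsto_const_div_atTop_nhds_zero_nat ((2 * k : ℕ) : ℝ))
        refine h2.congr' ?_
        filter_upwards [Filter.eventually_ge_atTop (2 * k + 1)] with L hL
        have : (0 : ℝ) < L := Nat.cast_pos.mpr (by omega)
        rw [Nat.cast_sub (by omega : 2 * k ≤ L)]
        field_simp
      simpa using (h1.pow (Fintype.card E)).mul_const D
    refine le_of_tendsto hlim ?_
    filter_upwards [Filter.eventually_ge_atTop (2 * k + 1)] with L hL
    exact Walk.box_bound a b w p K hK hp0 hM k L hk (by omega) hE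
  refine le_trans ?_ hbound
  obtain ⟨t, rfl⟩ : ∃ t, k = t + 1 := ⟨k - 1, by omega⟩
  have hD : D = ∑ h, Walk.val a b w p t (Walk.dst a b h) (Walk.inc w h) := by
    rw [← Walk.sum_star a b (fun h => Walk.val a b w p t (Walk.dst a b h) (Walk.inc w h))]
    refine Finset.sum_congr rfl fun v _ => ?_
    rw [Walk.val]
    simp only [zero_add]
    rcases (Walk.star a b v).eq_empty_or_nonempty with h0 | h0
    · simp [h0]
    · rw [← mul_assoc, mul_inv_cancel₀ (Nat.cast_ne_zero.mpr h0.card_pos.ne'), one_mul]
  rw [hD]
  calc (2 * (Fintype.card E : ℝ) - ((t + 1 : ℕ) : ℝ) * ((Fintype.card A : ℝ) + Fintype.card B))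
        * c ^ p
      ≤ (2 * (Fintype.card E : ℝ) - (t : ℝ) * ((Fintype.card A : ℝ) + Fintype.card B)) * c ^ p := by
        refine mul_le_mul_of_nonneg_right ?_ (Real.rpow_nonneg hc p)
        push_cast
        have : (0 : ℝ) ≤ (Fintype.card A : ℝ) + Fintype.card B := by positivity
        linarith
    _ ≤ (∑ h, Walk.nb a b t h) * c ^ p :=
        mul_le_mul_of_nonneg_right (Walk.sum_nb a b t) (Real.rpow_nonneg hc p)
    _ ≤ _ := by
        rw [Finset.sum_mul]
        refine Finset.sum_le_sum fun h _ => ?_
        rw [mul_comm]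
        have := Walk.val_ge_nb a b w p hc hp0.le t h 0 fun e side _ _ halt hnb => ?_
        · simpa using this
        · rw [zero_add, norm_smul]
          have : ‖Walk.sg h‖ = 1 := by rcases hh : h.2 <;> simp [Walk.sg, hh]
          rw [this, one_mul]
          exact hpath e side halt hnb

end Vale.Agent.P125
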